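import Vale.Agent.P157.Sphere.Super
import Vale.Agent.P157.Seq

/-!
# P157, sphere: the limit of the pressure of the spherical perceptron
-/

noncomputable section

open MeasureTheory ProbabilityTheory Real Filter Topology
open scoped BigOperators

namespace P157.Sphere

theorem main (α A : ℝ) (hα : 0 < α) (ν : Measure ℝ) [IsFiniteMeasure ν]
    (hA : ν.real Set.univ < A) :
    ∃ L : ℝ, Tendsto (fun N : ℕ =>
      ∫ g : Fin ⌊α * N⌋₊ → Fin N → ℝ,
        (1 / (N : ℝ)) * Real.log (⨍ x : Metric.sphere (0 : EuclideanSpace ℝ (Fin N)) 1,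
          Real.exp (∑ a, Real.log (A - ∫ ξ, Real.cos (ξ * ((∑ i, g a i *
            (Real.sqrt N * (x : EuclideanSpace ℝ (Fin N)) i)) / Real.sqrt N)) ∂ν))
          ∂(volume : Measure (EuclideanSpace ℝ (Fin N))).toSphere)
        ∂Measure.pi (fun _ => Measure.pi fun _ => gaussianReal 0 1)) atTop (𝓝 L) := by
  have hf : Measurable (pot A ν) := (continuous_pot hA).measurable
  have hB := abs_pot_le (ν := ν) hA
  have hB0 : 0 ≤ potB A ν := (abs_nonneg _).trans (hB 0)
  have hv := sqVar_nonneg
  obtain ⟨L, hL, -⟩ := exists_limit (C := potB A ν * (8 * (sqVar + 1) * α + 2 * Real.sqrt α + 12))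
    (by positivity) (sSeq_bound hf hB hα.le) (sSeq_super hA hα.le)
  refine ⟨L, Tendsto.congr' ?_ hL⟩
  filter_upwards [eventually_gt_atTop 0] with N hN
  have : Nonempty (Fin N) := ⟨⟨0, hN⟩⟩
  have hs : Real.sqrt N ≠ 0 := (Real.sqrt_pos.2 (by exact_mod_cast hN)).ne'
  rw [integral_const_mul, div_eq_inv_mul, ← one_div]
  congr 1
  show V _ _ _ _ = _
  unfold V
  refine integral_congr_ae (Eventually.of_forall fun g => ?_)
  simp only [lz, sph_eq]
  rw [integral_map measurable_coords.aemeasurable]
  · congr 1
    rw [average]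
    refine integral_congr_ae (Eventually.of_forall fun x => ?_)
    have e : ∀ a, (∑ i, g a i * (Real.sqrt N * (x : EuclideanSpace ℝ (Fin N)) i)) / Real.sqrt N
        = fld (fun y : Fin N → ℝ => y) (g a) (coords x) := by
      intro a
      rw [div_eq_iff hs, fld, Finset.sum_mul]
      exact Finset.sum_congr rfl fun i _ => by simp only [coords]; ring
    simp only [e, zero_add]
    rfl
  · exact ((measurable_const.add ((measurable_tot hf fun _ => measurable_id').comp
      measurable_prodMk_left)).exp).aestronglyMeasurable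

end P157.Sphere

end
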