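import Vale.Agent.P157.Split

/-!
# P157, sphere: averaged log partition functions over a general configuration space
-/

noncomputable section

open MeasureTheory ProbabilityTheory Real Filter Topology
open scoped BigOperators

namespace P157.Sphere

variable {X ι : Type*} [MeasurableSpace X] [Fintype ι]

/-- Bounded measurable. -/
def Bdd (u : X → ℝ) : Prop := Measurable u ∧ ∃ C, ∀ x, |u x| ≤ C

lemma Bdd.zero : Bdd (fun _ : X => (0 : ℝ)) := ⟨measurable_const, 0, fun _ => by simp⟩

lemma Bdd.add {u v : X → ℝ} (h : Bdd u) (h' : Bdd v) : Bdd (fun x => u x + v x) := by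
  obtain ⟨hm, C, hC⟩ := h
  obtain ⟨hm', C', hC'⟩ := h'
  exact ⟨hm.add hm', C + C', fun x => (abs_add_le _ _).trans (add_le_add (hC x) (hC' x))⟩

/-- Gaussian field of a profile. -/
def fld (p : X → ι → ℝ) (g : ι → ℝ) (x : X) : ℝ := ∑ i, p x i * g i

lemma measurable_fld {p : X → ι → ℝ} (hp : Measurable p) :
    Measurable fun q : (ι → ℝ) × X => fld p q.1 q.2 := by
  unfold fld
  refine Finset.measurable_sum _ fun i _ => ?_
  exact ((measurable_pi_iff.1 hp i).comp measurable_snd).mul
    ((measurable_pi_apply i).comp measurable_fst)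

/-- log of the partition function. -/
def lz (μ : Measure X) (u : X → ℝ) : ℝ := Real.log (∫ x, Real.exp (u x) ∂μ)

/-- The total of the rows. -/
def tot (f : ℝ → ℝ) {k : ℕ} (cs : Fin k → X → ι → ℝ) (G : Fin k → ι → ℝ) (x : X) : ℝ :=
  ∑ a, f (fld (cs a) (G a) x)

/-- Averaged log partition function. -/
def V (μ : Measure X) (f : ℝ → ℝ) {k : ℕ} (cs : Fin k → X → ι → ℝ) (u : X → ℝ) : ℝ :=
  ∫ G, lz μ (fun x => u x + tot f cs G x) ∂Measure.pi (fun _ : Fin k => gM ι)

variable (μ : Measure X) [IsProbabilityMeasure μ]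

omit [IsProbabilityMeasure μ] in
lemma integrable_exp [IsFiniteMeasure μ] {u : X → ℝ} (hu : Bdd u) :
    Integrable (fun x => Real.exp (u x)) μ := by
  obtain ⟨hm, C, hC⟩ := hu
  exact Integrable.of_bound hm.exp.aestronglyMeasurable (Real.exp C) (Eventually.of_forall fun x => by
    rw [Real.norm_eq_abs, abs_of_pos (Real.exp_pos _)]
    exact Real.exp_le_exp.2 (le_of_abs_le (hC x)))

lemma exp_integral_pos {u : X → ℝ} (hu : Bdd u) : 0 < ∫ x, Real.exp (u x) ∂μ :=
  integral_exp_pos (integrable_exp μ hu)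

lemma abs_lz_le {u : X → ℝ} (hm : Measurable u) {C : ℝ} (hC : ∀ x, |u x| ≤ C) :
    |lz μ u| ≤ C := by
  have hi := integrable_exp μ ⟨hm, C, hC⟩
  have h1 : Real.exp (-C) ≤ ∫ x, Real.exp (u x) ∂μ := by
    have := integral_mono (integrable_const (Real.exp (-C))) hi
      fun x => Real.exp_le_exp.2 (abs_le.1 (hC x)).1
    simpa using this
  have h2 : ∫ x, Real.exp (u x) ∂μ ≤ Real.exp C := by
    have := integral_mono hi (integrable_const (Real.exp C))
      fun x => Real.exp_le_exp.2 (abs_le.1 (hC x)).2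
    simpa using this
  have a := Real.log_le_log (Real.exp_pos _) h1
  have b := Real.log_le_log ((Real.exp_pos _).trans_le h1) h2
  rw [Real.log_exp] at a b
  exact abs_le.2 ⟨a, b⟩

/-- Families of configurations: joint measurability gives integrability. -/
lemma integrable_lz {Ω : Type*} [MeasurableSpace Ω] (P : Measure Ω) [IsFiniteMeasure P]
    {U : Ω → X → ℝ} (hU : Measurable fun q : Ω × X => U q.1 q.2) {C : ℝ}
    (hC : ∀ ω x, |U ω x| ≤ C) : Integrable (fun ω => lz μ (U ω)) P := by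
  refine Integrable.of_bound ?_ C (Eventually.of_forall fun ω => ?_)
  · have h : StronglyMeasurable fun q : Ω × X => Real.exp (U q.1 q.2) := hU.exp.stronglyMeasurable
    exact (Real.measurable_log.comp h.integral_prod_right'.measurable).aestronglyMeasurable
  · exact abs_lz_le μ (hU.comp measurable_prodMk_left) (hC ω)

variable {f : ℝ → ℝ} {B : ℝ} (hf : Measurable f) (hB : ∀ s, |f s| ≤ B)
include hf hB

omit μ [IsProbabilityMeasure μ] in
lemma bdd_row {p : X → ι → ℝ} (hp : Measurable p) {u : X → ℝ} (hu : Bdd u) (g : ι → ℝ) :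
    Bdd (fun x => u x + f (fld p g x)) :=
  hu.add ⟨hf.comp ((measurable_fld hp).comp measurable_prodMk_left), B, fun x => hB _⟩

omit μ [IsProbabilityMeasure μ] hf in
lemma abs_tot_le {k : ℕ} (cs : Fin k → X → ι → ℝ) (G : Fin k → ι → ℝ) (x : X) :
    |tot f cs G x| ≤ k * B := by
  refine (Finset.abs_sum_le_sum_abs _ _).trans ?_
  refine (Finset.sum_le_card_nsmul _ _ B fun a _ => hB _).trans_eq ?_
  simp

omit μ [IsProbabilityMeasure μ] hB in
lemma measurable_tot {k : ℕ} {cs : Fin k → X → ι → ℝ} (hc : ∀ a, Measurable (cs a)) :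
    Measurable fun q : (Fin k → ι → ℝ) × X => tot f cs q.1 q.2 := by
  unfold tot
  refine Finset.measurable_sum _ fun a _ => hf.comp ?_
  have h : Measurable fun q : (Fin k → ι → ℝ) × X => (q.1 a, q.2) :=
    ((measurable_pi_apply a).comp measurable_fst).prodMk measurable_snd
  exact (measurable_fld (hc a)).comp h

omit μ [IsProbabilityMeasure μ] in
lemma bdd_tot {k : ℕ} {cs : Fin k → X → ι → ℝ} (hc : ∀ a, Measurable (cs a)) {u : X → ℝ}
    (hu : Bdd u) (G : Fin k → ι → ℝ) : Bdd (fun x => u x + tot f cs G x) :=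
  hu.add ⟨(measurable_tot hf hc).comp measurable_prodMk_left, _, abs_tot_le hB cs G⟩

lemma integrable_V {k : ℕ} {cs : Fin k → X → ι → ℝ} (hc : ∀ a, Measurable (cs a)) {u : X → ℝ}
    (hu : Bdd u) : Integrable (fun G => lz μ (fun x => u x + tot f cs G x))
      (Measure.pi fun _ : Fin k => gM ι) := by
  obtain ⟨hm, C, hC⟩ := hu
  exact integrable_lz μ _ (U := fun G x => u x + tot f cs G x)
    ((hm.comp measurable_snd).add (measurable_tot hf hc))
    (C := C + k * B) fun G x => (abs_add_le _ _).trans (add_le_add (hC x) (abs_tot_le hB cs G x))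

omit [IsProbabilityMeasure μ] hf hB in
lemma V_zero (cs : Fin 0 → X → ι → ℝ) (u : X → ℝ) : V μ f cs u = lz μ u := by
  simp [V, tot]

lemma integrable_pair {k : ℕ} {c : X → ι → ℝ} (hc₀ : Measurable c) {cs : Fin k → X → ι → ℝ}
    (hc : ∀ a, Measurable (cs a)) {u : X → ℝ} (hu : Bdd u) :
    Integrable (fun q : (ι → ℝ) × (Fin k → ι → ℝ) =>
      lz μ (fun x => u x + f (fld c q.1 x) + tot f cs q.2 x))
      ((gM ι).prod (Measure.pi fun _ : Fin k => gM ι)) := by
  obtain ⟨hm, C, hC⟩ := hu
  refine integrable_lz μ _ (U := fun (q : (ι → ℝ) × (Fin k → ι → ℝ)) x =>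
    u x + f (fld c q.1 x) + tot f cs q.2 x) ?_ (C := C + B + k * B) fun q x => ?_
  · exact ((hm.comp measurable_snd).add (hf.comp ((measurable_fld hc₀).comp
      ((measurable_fst.comp measurable_fst).prodMk measurable_snd)))).add
      ((measurable_tot hf hc).comp ((measurable_snd.comp measurable_fst).prodMk measurable_snd))
  · exact (abs_add_le _ _).trans (add_le_add
      ((abs_add_le _ _).trans (add_le_add (hC x) (hB _))) (abs_tot_le hB cs _ x))

lemma V_cons_pair {k : ℕ} {c : X → ι → ℝ} (hc₀ : Measurable c) {cs : Fin k → X → ι → ℝ}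
    (hc : ∀ a, Measurable (cs a)) {u : X → ℝ} (hu : Bdd u) :
    V μ f (Fin.cons c cs : Fin (k + 1) → X → ι → ℝ) u
      = ∫ q, lz μ (fun x => u x + f (fld c q.1 x) + tot f cs q.2 x)
          ∂(gM ι).prod (Measure.pi fun _ : Fin k => gM ι) := by
  have hmp := (measurePreserving_piFinSuccAbove (n := k) (fun _ : Fin (k + 1) => gM ι) 0).symm
  unfold V
  rw [← hmp.map_eq, integral_map_equiv]
  refine integral_congr_ae (Eventually.of_forall fun q => ?_)
  simp [tot, MeasurableEquiv.piFinSuccAbove, Fin.sum_univ_succ, add_assoc]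

lemma V_cons {k : ℕ} {c : X → ι → ℝ} (hc₀ : Measurable c) {cs : Fin k → X → ι → ℝ}
    (hc : ∀ a, Measurable (cs a)) {u : X → ℝ} (hu : Bdd u) :
    V μ f (Fin.cons c cs : Fin (k + 1) → X → ι → ℝ) u
      = ∫ g, V μ f cs (fun x => u x + f (fld c g x)) ∂gM ι := by
  rw [V_cons_pair μ hf hB hc₀ hc hu, integral_prod _ (integrable_pair μ hf hB hc₀ hc hu)]
  rfl

lemma integrable_V_row {k : ℕ} {c : X → ι → ℝ} (hc₀ : Measurable c) {cs : Fin k → X → ι → ℝ}
    (hc : ∀ a, Measurable (cs a)) {u : X → ℝ} (hu : Bdd u) :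
    Integrable (fun g => V μ f cs (fun x => u x + f (fld c g x))) (gM ι) :=
  (integrable_pair μ hf hB hc₀ hc hu).integral_prod_left

lemma V_cons_swap {k : ℕ} {c : X → ι → ℝ} (hc₀ : Measurable c) {cs : Fin k → X → ι → ℝ}
    (hc : ∀ a, Measurable (cs a)) {u : X → ℝ} (hu : Bdd u) :
    V μ f (Fin.cons c cs : Fin (k + 1) → X → ι → ℝ) u
      = ∫ G, (∫ g, lz μ (fun x => u x + tot f cs G x + f (fld c g x)) ∂gM ι)
          ∂Measure.pi (fun _ : Fin k => gM ι) := by
  rw [V_cons_pair μ hf hB hc₀ hc hu, integral_prod_symm _ (integrable_pair μ hf hB hc₀ hc hu)]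
  simp only [add_right_comm]

lemma integrable_swap {k : ℕ} {c : X → ι → ℝ} (hc₀ : Measurable c) {cs : Fin k → X → ι → ℝ}
    (hc : ∀ a, Measurable (cs a)) {u : X → ℝ} (hu : Bdd u) :
    Integrable (fun G => ∫ g, lz μ (fun x => u x + tot f cs G x + f (fld c g x)) ∂gM ι)
      (Measure.pi fun _ : Fin k => gM ι) := by
  simpa only [add_right_comm] using (integrable_pair μ hf hB hc₀ hc hu).integral_prod_right

omit hf hB in
lemma lz_lip {u v : X → ℝ} (hu : Bdd u) (hv : Bdd v) {t : ℝ} (h : ∀ x, |u x - v x| ≤ t) :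
    |lz μ u - lz μ v| ≤ t := by
  have key : ∀ {u v : X → ℝ}, Bdd u → Bdd v → (∀ x, |u x - v x| ≤ t) → lz μ u - lz μ v ≤ t := by
    intro u v hu hv h
    have h1 : ∫ x, Real.exp (u x) ∂μ ≤ Real.exp t * ∫ x, Real.exp (v x) ∂μ := by
      rw [← integral_const_mul]
      refine integral_mono (integrable_exp μ hu) ((integrable_exp μ hv).const_mul _) fun x => ?_
      rw [← Real.exp_add]
      exact Real.exp_le_exp.2 (by have := (abs_le.1 (h x)).2; linarith)
    have h2 := Real.log_le_log (exp_integral_pos μ hu) h1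
    rw [Real.log_mul (Real.exp_pos t).ne' (exp_integral_pos μ hv).ne', Real.log_exp] at h2
    unfold lz
    linarith
  refine abs_le.2 ⟨?_, key hu hv h⟩
  have := key hv hu fun x => by rw [abs_sub_comm]; exact h x
  linarith

/-- Pressure with `k` equal rows. -/
lemma V_const_step {c : X → ι → ℝ} (hc₀ : Measurable c) (k : ℕ) {u : X → ℝ} (hu : Bdd u) :
    |V μ f (fun _ : Fin (k + 1) => c) u - V μ f (fun _ : Fin k => c) u| ≤ B := by
  have e : (fun _ : Fin (k + 1) => c) = (Fin.cons c (fun _ : Fin k => c) : Fin (k + 1) → X → ι → ℝ) := by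
    funext a; refine Fin.cases ?_ (fun b => ?_) a <;> simp
  rw [e, V_cons μ hf hB hc₀ (fun _ => hc₀) hu]
  have hi := integrable_V_row μ hf hB hc₀ (cs := fun _ : Fin k => c) (fun _ => hc₀) hu
  rw [show (∫ g, V μ f (fun _ : Fin k => c) (fun x => u x + f (fld c g x)) ∂gM ι)
      - V μ f (fun _ : Fin k => c) u
    = ∫ g, (V μ f (fun _ : Fin k => c) (fun x => u x + f (fld c g x))
      - V μ f (fun _ : Fin k => c) u) ∂gM ι by
      rw [integral_sub hi (integrable_const _)]; simp]
  rw [← Real.norm_eq_abs]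
  refine (norm_integral_le_of_norm_le_const (C := B) (Eventually.of_forall fun g => ?_)).trans_eq
    (by simp)
  have hi' := integrable_V μ hf hB (cs := fun _ : Fin k => c) (fun _ => hc₀) (bdd_row hf hB hc₀ hu g)
  unfold V
  rw [← integral_sub hi' (integrable_V μ hf hB (fun _ => hc₀) hu)]
  refine (norm_integral_le_of_norm_le_const (C := B) (Eventually.of_forall fun G => ?_)).trans_eq
    (by simp)
  rw [Real.norm_eq_abs]
  refine lz_lip μ (bdd_tot hf hB (fun _ => hc₀) (bdd_row hf hB hc₀ hu g) G)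
    (bdd_tot hf hB (fun _ => hc₀) hu G) fun x => ?_
  simpa using hB _

lemma V_const_dist {c : X → ι → ℝ} (hc₀ : Measurable c) {u : X → ℝ} (hu : Bdd u) (k k' : ℕ) :
    |V μ f (fun _ : Fin k => c) u - V μ f (fun _ : Fin k' => c) u| ≤ B * |(k : ℝ) - k'| := by
  have key : ∀ k d : ℕ, |V μ f (fun _ : Fin (k + d) => c) u - V μ f (fun _ : Fin k => c) u| ≤ B * d := by
    intro k d
    induction d with
    | zero => simp
    | succ d ih =>
      have := V_const_step μ hf hB hc₀ (k + d) hu
      have h3 := abs_sub_le (V μ f (fun _ : Fin (k + d + 1) => c) u)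
        (V μ f (fun _ : Fin (k + d) => c) u) (V μ f (fun _ : Fin k => c) u)
      rw [show k + (d + 1) = k + d + 1 from rfl]
      push_cast
      linarith
  rcases le_total k k' with h | h
  · obtain ⟨d, rfl⟩ := Nat.exists_eq_add_of_le h
    rw [abs_sub_comm, abs_sub_comm (k : ℝ)]
    push_cast
    simpa using key k d
  · obtain ⟨d, rfl⟩ := Nat.exists_eq_add_of_le h
    push_cast
    simpa using key k' d

end P157.Sphere

end
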