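import Vale.Agent.P157.Split

/-!
# P157, sphere: polar coordinates of a standard Gaussian vector
-/

noncomputable section

open MeasureTheory ProbabilityTheory Real Filter Topology Set
open scoped BigOperators ENNReal

namespace P157.Sphere

variable {ι : Type*} [Fintype ι]

/-- Squared radius. -/
def rad (z : ι → ℝ) : ℝ := ∑ i, z i ^ 2

/-- Direction. -/
def dir (z : ι → ℝ) (i : ι) : ℝ := z i / Real.sqrt (rad z)

lemma measurable_rad : Measurable (rad : (ι → ℝ) → ℝ) := by unfold rad; fun_prop

lemma measurable_dir : Measurable (dir : (ι → ℝ) → ι → ℝ) := by unfold dir rad; fun_prop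

/-- The law of the direction. -/
def sph (ι : Type*) [Fintype ι] : Measure (ι → ℝ) := (gM ι).map dir

/-- The law of the squared radius. -/
def rlaw (ι : Type*) [Fintype ι] : Measure ℝ := (gM ι).map rad

instance : IsProbabilityMeasure (sph ι) :=
  Measure.isProbabilityMeasure_map measurable_dir.aemeasurable

instance : IsProbabilityMeasure (rlaw ι) :=
  Measure.isProbabilityMeasure_map measurable_rad.aemeasurable

/-- Gaussian density as a function of the squared radius. -/
def dens (n : ℕ) (r : ℝ) : ℝ := (Real.sqrt (2 * π))⁻¹ ^ n * Real.exp (-r / 2)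

lemma dens_rad (z : ι → ℝ) :
    dens (Fintype.card ι) (rad z) = ∏ i, gaussianPDFReal 0 1 (z i) := by
  simp only [gaussianPDFReal, NNReal.coe_one, mul_one, sub_zero, Finset.prod_mul_distrib,
    ← Real.exp_sum, Finset.prod_const, Finset.card_univ, dens, rad]
  congr 2
  rw [← Finset.sum_neg_distrib, Finset.sum_div]

lemma gM_eq_withDensity :
    gM ι = (volume : Measure (ι → ℝ)).withDensity
      fun z => ENNReal.ofReal (dens (Fintype.card ι) (rad z)) := by
  refine Measure.pi_eq fun s hs => ?_
  have hi : ∀ i, Integrable (gaussianPDFReal 0 1) ((volume : Measure ℝ).restrict (s i)) :=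
    fun i => (integrable_gaussianPDFReal 0 1).restrict
  rw [withDensity_apply _ (MeasurableSet.univ_pi hs), volume_pi, Measure.restrict_pi_pi]
  simp only [dens_rad]
  rw [← ofReal_integral_eq_lintegral_ofReal (Integrable.fintype_prod hi)
      (ae_of_all _ fun g => Finset.prod_nonneg fun i _ => gaussianPDFReal_nonneg _ _ _),
    integral_fintype_prod_eq_prod (fun _ x => gaussianPDFReal 0 1 x),
    ENNReal.ofReal_prod_of_nonneg fun i _ => integral_nonneg fun x => gaussianPDFReal_nonneg _ _ _]
  refine Finset.prod_congr rfl fun i _ => ?_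
  rw [gaussianReal_apply_eq_integral _ one_ne_zero]

/-- The unit sphere. -/
abbrev USph (ι : Type*) [Fintype ι] := Metric.sphere (0 : EuclideanSpace ℝ ι) 1

/-- Coordinates of a point of the unit sphere. -/
def coords (θ : USph ι) (i : ι) : ℝ := (θ : EuclideanSpace ℝ ι) i

lemma measurable_coords : Measurable (coords : USph ι → ι → ℝ) := by unfold coords; fun_prop

lemma norm_toLp_sq (z : ι → ℝ) : ‖(WithLp.toLp 2 z : EuclideanSpace ℝ ι)‖ ^ 2 = rad z := by
  rw [EuclideanSpace.real_norm_sq_eq]; rfl

lemma polar [Nonempty ι] {F : (ι → ℝ) → ℝ≥0∞} (hF : Measurable F) {H : ℝ → ℝ≥0∞}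
    (hH : Measurable H) :
    ∫⁻ z, F (dir z) * H (rad z) ∂gM ι
      = (∫⁻ θ, F (coords θ) ∂(volume : Measure (EuclideanSpace ℝ ι)).toSphere) *
        ∫⁻ r : Ioi (0 : ℝ), ENNReal.ofReal (dens (Fintype.card ι) (r.1 ^ 2)) * H (r.1 ^ 2)
          ∂Measure.volumeIoiPow (Fintype.card ι - 1) := by
  set n := Fintype.card ι
  have hm : Measurable fun z : ι → ℝ => ENNReal.ofReal (dens n (rad z)) := by
    unfold dens rad; fun_prop
  rw [gM_eq_withDensity]
  refine (lintegral_withDensity_eq_lintegral_mul _ hm
    ((hF.comp measurable_dir).mul (hH.comp measurable_rad))).trans ?_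
  simp only [Pi.mul_apply, Function.comp_apply]
  let G : EuclideanSpace ℝ ι → ℝ≥0∞ := fun x =>
    ENNReal.ofReal (dens n (‖x‖ ^ 2)) * (F (fun i => x i / ‖x‖) * H (‖x‖ ^ 2))
  have hG : Measurable G := by
    unfold G dens
    exact Measurable.mul (by fun_prop) ((hF.comp (by fun_prop)).mul (hH.comp (by fun_prop)))
  have hr : Measurable fun r : Ioi (0 : ℝ) => ENNReal.ofReal (dens n (r.1 ^ 2)) := by
    unfold dens; fun_prop
  have hq : Measurable fun q : USph ι × Ioi (0 : ℝ) => ENNReal.ofReal (dens n (q.2.1 ^ 2)) :=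
    hr.comp measurable_snd
  calc _ = ∫⁻ z : ι → ℝ, G (WithLp.toLp 2 z) := by
        refine lintegral_congr fun z => ?_
        have e : ‖(WithLp.toLp 2 z : EuclideanSpace ℝ ι)‖ = Real.sqrt (rad z) := by
          rw [← norm_toLp_sq, Real.sqrt_sq (norm_nonneg _)]
        have h0 : 0 ≤ rad z := Finset.sum_nonneg fun i _ => sq_nonneg _
        simp only [G, e, Real.sq_sqrt h0]
        rfl
    _ = ∫⁻ x, G x := (PiLp.volume_preserving_toLp ι).lintegral_comp hG
    _ = ∫⁻ x : ({0}ᶜ : Set (EuclideanSpace ℝ ι)), G x
          ∂((volume : Measure (EuclideanSpace ℝ ι)).comap Subtype.val) := by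
        rw [lintegral_subtype_comap (measurableSet_singleton _).compl, restrict_compl_singleton]
    _ = ∫⁻ q, F (coords q.1) *
          (ENNReal.ofReal (dens n (q.2.1 ^ 2)) * H (q.2.1 ^ 2))
          ∂((volume : Measure (EuclideanSpace ℝ ι)).toSphere.prod
            (Measure.volumeIoiPow (Module.finrank ℝ (EuclideanSpace ℝ ι) - 1))) := by
        rw [← (Measure.measurePreserving_homeomorphUnitSphereProd
          (volume : Measure (EuclideanSpace ℝ ι))).lintegral_comp]
        · refine lintegral_congr fun x => ?_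
          simp only [G, coords, homeomorphUnitSphereProd_apply_fst_coe,
            homeomorphUnitSphereProd_apply_snd_coe, PiLp.smul_apply, smul_eq_mul]
          rw [mul_left_comm]
          congr 2
          funext i
          simp [coords, div_eq_inv_mul]
        · exact Measurable.mul (hF.comp (measurable_coords.comp measurable_fst))
            (Measurable.mul hq (hH.comp ((measurable_subtype_coe.comp measurable_snd).pow_const 2)))
    _ = _ := by
        rw [finrank_euclideanSpace]
        exact lintegral_prod_mul (hF.comp measurable_coords).aemeasurable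
          (Measurable.mul hr (hH.comp (measurable_subtype_coe.pow_const 2))).aemeasurable

lemma indicator_dir_rad (A : Set (ι → ℝ)) (B : Set ℝ) (z : ι → ℝ) :
    A.indicator (1 : (ι → ℝ) → ℝ≥0∞) (dir z) * B.indicator (1 : ℝ → ℝ≥0∞) (rad z)
      = (dir ⁻¹' A ∩ rad ⁻¹' B).indicator 1 z := by
  by_cases hz : dir z ∈ A <;> by_cases hz' : rad z ∈ B <;> simp [hz, hz']

/-- The direction is independent of the radius. -/
theorem map_dir_rad [Nonempty ι] :
    (gM ι).map (fun z => (dir z, rad z)) = (sph ι).prod (rlaw ι) := by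
  refine (Measure.prod_eq fun A B hA hB => ?_).symm
  rw [Measure.map_apply (measurable_dir.prodMk measurable_rad) (hA.prod hB), sph, rlaw,
    Measure.map_apply measurable_dir hA, Measure.map_apply measurable_rad hB]
  set S := fun A : Set (ι → ℝ) =>
    ∫⁻ θ, A.indicator (1 : (ι → ℝ) → ℝ≥0∞) (coords θ) ∂(volume : Measure (EuclideanSpace ℝ ι)).toSphere
  set Q := fun B : Set ℝ =>
    ∫⁻ r : Ioi (0 : ℝ), ENNReal.ofReal (dens (Fintype.card ι) (r.1 ^ 2)) *
      B.indicator (1 : ℝ → ℝ≥0∞) (r.1 ^ 2) ∂Measure.volumeIoiPow (Fintype.card ι - 1)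
  have key : ∀ (A : Set (ι → ℝ)) (B : Set ℝ), MeasurableSet A → MeasurableSet B →
      gM ι (dir ⁻¹' A ∩ rad ⁻¹' B) = S A * Q B := by
    intro A B hA hB
    have h := polar (F := A.indicator 1) (measurable_one.indicator hA) (H := B.indicator 1)
      (measurable_one.indicator hB)
    simp only [indicator_dir_rad] at h
    rwa [lintegral_indicator_one ((measurable_dir hA).inter (measurable_rad hB))] at h
  have h2 := key A univ hA MeasurableSet.univ
  have h3 := key univ B MeasurableSet.univ hB
  have h4 := key univ univ MeasurableSet.univ MeasurableSet.univ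
  simp only [preimage_univ, inter_univ, univ_inter, measure_univ] at h2 h3 h4
  show gM ι (dir ⁻¹' A ∩ rad ⁻¹' B) = _
  rw [key A B hA hB, h2, h3, show S A * Q univ * (S univ * Q B) = S A * Q B * (S univ * Q univ)
    by ring, ← h4, mul_one]

/-- The law of the direction is normalised surface measure. -/
theorem sph_eq [Nonempty ι] :
    sph ι = (((volume : Measure (EuclideanSpace ℝ ι)).toSphere univ)⁻¹ •
      (volume : Measure (EuclideanSpace ℝ ι)).toSphere).map coords := by
  set σ := (volume : Measure (EuclideanSpace ℝ ι)).toSphere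
  set c := ∫⁻ r : Ioi (0 : ℝ), ENNReal.ofReal (dens (Fintype.card ι) (r.1 ^ 2)) * 1
    ∂Measure.volumeIoiPow (Fintype.card ι - 1)
  have key : ∀ A : Set (ι → ℝ), MeasurableSet A → gM ι (dir ⁻¹' A) = σ (coords ⁻¹' A) * c := by
    intro A hA
    have h := polar (F := A.indicator 1) (measurable_one.indicator hA) (H := fun _ => 1)
      measurable_const
    have e1 : (fun z => A.indicator (1 : (ι → ℝ) → ℝ≥0∞) (dir z) * 1)
        = (dir ⁻¹' A).indicator 1 := by
      funext z; by_cases hz : dir z ∈ A <;> simp [hz]
    have e2 : (fun θ => A.indicator (1 : (ι → ℝ) → ℝ≥0∞) (coords θ))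
        = (coords ⁻¹' A).indicator 1 := by
      funext z; by_cases hz : coords z ∈ A <;> simp [hz]
    rw [e1, e2, lintegral_indicator_one (measurable_dir hA),
      lintegral_indicator_one (measurable_coords hA)] at h
    exact h
  have h4 := key univ MeasurableSet.univ
  simp only [preimage_univ, measure_univ] at h4
  ext A hA
  rw [sph, Measure.map_apply measurable_dir hA, Measure.map_apply measurable_coords hA,
    Measure.smul_apply, smul_eq_mul, key A hA,
    ENNReal.eq_inv_of_mul_eq_one_left (a := c) (b := σ univ) (by rw [mul_comm]; exact h4.symm)]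
  exact mul_comm _ _

end P157.Sphere

end
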