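import Vale.Agent.P157.Sphere.OneRow

/-!
# P157, sphere: interpolation over the rows and splitting in two blocks
-/

noncomputable section

open MeasureTheory ProbabilityTheory Real Filter Topology
open scoped BigOperators

namespace P157.Sphere

/-- Average over independent random choices between two profiles. -/
def Av {C : Type*} (w : ℝ) (c₁ c₂ : C) : (M : ℕ) → ((Fin M → C) → ℝ) → ℝ
  | 0, φ => φ Fin.elim0
  | M + 1, φ => w * Av w c₁ c₂ M (fun cs => φ (Fin.cons c₁ cs)) +
      (1 - w) * Av w c₁ c₂ M (fun cs => φ (Fin.cons c₂ cs))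

section Generic

variable {C : Type*} {w : ℝ} {c₁ c₂ : C}

lemma Av_congr (P : C → Prop) (h₁ : P c₁) (h₂ : P c₂) : ∀ {M : ℕ} {φ ψ : (Fin M → C) → ℝ},
    (∀ cs, (∀ a, P (cs a)) → φ cs = ψ cs) → Av w c₁ c₂ M φ = Av w c₁ c₂ M ψ := by
  intro M
  induction M with
  | zero => intro φ ψ h; exact h _ fun a => a.elim0
  | succ M ih =>
    intro φ ψ h
    simp only [Av]
    rw [ih fun cs hcs => h (Fin.cons c₁ cs) (Fin.cases (by simpa using h₁) (by simpa using hcs)),
      ih fun cs hcs => h (Fin.cons c₂ cs) (Fin.cases (by simpa using h₂) (by simpa using hcs))]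

lemma integrable_Av {Ω : Type*} [MeasurableSpace Ω] {μ : Measure Ω} (P : C → Prop) (h₁ : P c₁)
    (h₂ : P c₂) : ∀ {M : ℕ} {φ : Ω → (Fin M → C) → ℝ},
      (∀ cs, (∀ a, P (cs a)) → Integrable (fun x => φ x cs) μ) →
      Integrable (fun x => Av w c₁ c₂ M (φ x)) μ := by
  intro M
  induction M with
  | zero => intro φ h; exact h _ fun a => a.elim0
  | succ M ih =>
    intro φ h
    exact ((ih fun cs hcs => h (Fin.cons c₁ cs)
        (Fin.cases (by simpa using h₁) (by simpa using hcs))).const_mul w).add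
      ((ih fun cs hcs => h (Fin.cons c₂ cs)
        (Fin.cases (by simpa using h₂) (by simpa using hcs))).const_mul _)

lemma integral_Av {Ω : Type*} [MeasurableSpace Ω] {μ : Measure Ω} (P : C → Prop) (h₁ : P c₁)
    (h₂ : P c₂) : ∀ {M : ℕ} {φ : Ω → (Fin M → C) → ℝ},
      (∀ cs, (∀ a, P (cs a)) → Integrable (fun x => φ x cs) μ) →
      ∫ x, Av w c₁ c₂ M (φ x) ∂μ = Av w c₁ c₂ M (fun cs => ∫ x, φ x cs ∂μ) := by
  intro M
  induction M with
  | zero => intro φ h; rfl
  | succ M ih =>
    intro φ h
    have a := fun cs hcs => h (Fin.cons c₁ cs) (Fin.cases (by simpa using h₁) (by simpa using hcs))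
    have b := fun cs hcs => h (Fin.cons c₂ cs) (Fin.cases (by simpa using h₂) (by simpa using hcs))
    simp only [Av]
    rw [integral_add ((integrable_Av P h₁ h₂ a).const_mul w) ((integrable_Av P h₁ h₂ b).const_mul _),
      integral_const_mul, integral_const_mul, ih a, ih b]

end Generic

variable {X ι : Type*} [MeasurableSpace X] [Fintype ι] (μ : Measure X) [IsProbabilityMeasure μ]
  {ν : Measure ℝ} [IsFiniteMeasure ν] {A : ℝ}

theorem Av_le_const (hA : ν.real Set.univ < A) {p p₁ p₂ : X → ι → ℝ} (hp : Measurable p)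
    (hp₁ : Measurable p₁) (hp₂ : Measurable p₂) {w : ℝ} (h0 : 0 ≤ w) (h1 : w ≤ 1)
    (hd : Dom p p₁ p₂ w) : ∀ (M : ℕ) (u : X → ℝ), Bdd u →
      Av w p₁ p₂ M (fun cs => V μ (pot A ν) cs u) ≤ V μ (pot A ν) (fun _ : Fin M => p) u := by
  have hf : Measurable (pot A ν) := (continuous_pot hA).measurable
  have hB := abs_pot_le (ν := ν) hA
  intro M
  induction M with
  | zero => intro u _; simp [Av, V_zero]
  | succ M ih =>
    intro u hu
    have step : ∀ d : X → ι → ℝ, Measurable d →
        Av w p₁ p₂ M (fun cs => V μ (pot A ν) (Fin.cons d cs : Fin (M + 1) → X → ι → ℝ) u)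
          ≤ V μ (pot A ν) (Fin.cons d (fun _ => p) : Fin (M + 1) → X → ι → ℝ) u := by
      intro d hd'
      rw [Av_congr Measurable hp₁ hp₂ fun cs hcs => V_cons μ hf hB hd' hcs hu,
        ← integral_Av Measurable hp₁ hp₂ fun cs hcs => integrable_V_row μ hf hB hd' hcs hu,
        V_cons μ hf hB hd' (fun _ => hp) hu]
      exact integral_mono (integrable_Av Measurable hp₁ hp₂ fun cs hcs =>
          integrable_V_row μ hf hB hd' hcs hu)
        (integrable_V_row μ hf hB hd' (fun _ => hp) hu) fun g => ih _ (bdd_row hf hB hd' hu g)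
    have e : (fun _ : Fin (M + 1) => p) = (Fin.cons p (fun _ : Fin M => p) : Fin (M + 1) → X → ι → ℝ) := by
      funext a; refine Fin.cases ?_ (fun b => ?_) a <;> simp
    have hswap : w * V μ (pot A ν) (Fin.cons p₁ (fun _ => p) : Fin (M + 1) → X → ι → ℝ) u +
        (1 - w) * V μ (pot A ν) (Fin.cons p₂ (fun _ => p) : Fin (M + 1) → X → ι → ℝ) u
          ≤ V μ (pot A ν) (Fin.cons p (fun _ => p) : Fin (M + 1) → X → ι → ℝ) u := by
      have hi := fun d hd' => integrable_swap μ hf hB (c := d) hd' (cs := fun _ : Fin M => p) (fun _ => hp) hu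
      rw [V_cons_swap μ hf hB hp₁ (fun _ => hp) hu, V_cons_swap μ hf hB hp₂ (fun _ => hp) hu,
        V_cons_swap μ hf hB hp (fun _ => hp) hu, ← integral_const_mul, ← integral_const_mul,
        ← integral_add ((hi p₁ hp₁).const_mul _) ((hi p₂ hp₂).const_mul _)]
      exact integral_mono (((hi p₁ hp₁).const_mul _).add ((hi p₂ hp₂).const_mul _)) (hi p hp)
        fun G => one_row' hA hp hp₁ hp₂ h0 h1 hd (bdd_tot hf hB (fun _ => hp) hu G)
    rw [e]
    exact (add_le_add (mul_le_mul_of_nonneg_left (step p₁ hp₁) h0)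
      (mul_le_mul_of_nonneg_left (step p₂ hp₂) (sub_nonneg.2 h1))).trans hswap

lemma cons_const {W : Type*} (k : ℕ) (c : W) :
    (Fin.cons c (fun _ : Fin k => c) : Fin (k + 1) → W) = fun _ => c := by
  funext a; refine Fin.cases ?_ (fun b => ?_) a <;> simp

section Split

variable {Y Z κ : Type*} [MeasurableSpace Y] [MeasurableSpace Z] [Fintype κ]
  (μ₁ : Measure Y) [IsProbabilityMeasure μ₁] (μ₂ : Measure Z) [IsProbabilityMeasure μ₂]

/-- Profile living in the first block. -/
def left (p : Y → ι → ℝ) (x : Y × Z) : ι ⊕ κ → ℝ := Sum.elim (p x.1) 0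

/-- Profile living in the second block. -/
def right (q : Z → κ → ℝ) (x : Y × Z) : ι ⊕ κ → ℝ := Sum.elim 0 (q x.2)

lemma measurable_left {p : Y → ι → ℝ} (hp : Measurable p) :
    Measurable (left (κ := κ) p : Y × Z → ι ⊕ κ → ℝ) := by
  refine measurable_pi_iff.2 fun i => ?_
  cases i with
  | inl i => exact (measurable_pi_iff.1 hp i).comp measurable_fst
  | inr i => exact measurable_const

lemma measurable_right {q : Z → κ → ℝ} (hq : Measurable q) :
    Measurable (right (ι := ι) q : Y × Z → ι ⊕ κ → ℝ) := by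
  refine measurable_pi_iff.2 fun i => ?_
  cases i with
  | inl i => exact measurable_const
  | inr i => exact (measurable_pi_iff.1 hq i).comp measurable_snd

omit [MeasurableSpace Y] [MeasurableSpace Z] in
lemma fld_left (p : Y → ι → ℝ) (g : ι ⊕ κ → ℝ) (x : Y × Z) :
    fld (left p) g x = fld p (g ∘ Sum.inl) x.1 := by
  simp [fld, left, Fintype.sum_sum_type]

omit [MeasurableSpace Y] [MeasurableSpace Z] in
lemma fld_right (q : Z → κ → ℝ) (g : ι ⊕ κ → ℝ) (x : Y × Z) :
    fld (right q) g x = fld q (g ∘ Sum.inr) x.2 := by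
  simp [fld, right, Fintype.sum_sum_type]

lemma lz_prod (u : Y → ℝ) (hu : Bdd u) (v : Z → ℝ) (hv : Bdd v) :
    lz (μ₁.prod μ₂) (fun x => u x.1 + v x.2) = lz μ₁ u + lz μ₂ v := by
  unfold lz
  simp only [Real.exp_add]
  rw [integral_prod_mul (fun y => Real.exp (u y)) (fun z => Real.exp (v z)),
    Real.log_mul (exp_integral_pos μ₁ hu).ne' (exp_integral_pos μ₂ hv).ne']

theorem Av_split {f : ℝ → ℝ} {B : ℝ} (hf : Measurable f) (hB : ∀ s, |f s| ≤ B) {p : Y → ι → ℝ}
    (hp : Measurable p) {q : Z → κ → ℝ} (hq : Measurable q) (w : ℝ) :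
    ∀ (M : ℕ) (u : Y → ℝ) (v : Z → ℝ), Bdd u → Bdd v →
      Av w (left p : Y × Z → ι ⊕ κ → ℝ) (right q) M
          (fun cs => V (μ₁.prod μ₂) f cs (fun x => u x.1 + v x.2))
        = Em w M (fun k => V μ₁ f (fun _ : Fin k => p) u + V μ₂ f (fun _ : Fin (M - k) => q) v) := by
  have hl : Measurable (left (κ := κ) p : Y × Z → ι ⊕ κ → ℝ) := measurable_left hp
  have hr : Measurable (right (ι := ι) q : Y × Z → ι ⊕ κ → ℝ) := measurable_right hq
  have hfst : MeasurePreserving (fun g : ι ⊕ κ → ℝ => g ∘ Sum.inl) (gM (ι ⊕ κ)) (gM ι) :=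
    (measurePreserving_fst (μ := gM ι) (ν := gM κ)).comp
      (measurePreserving_sumPiEquivProdPi fun _ : ι ⊕ κ => gaussianReal 0 1)
  have hsnd : MeasurePreserving (fun g : ι ⊕ κ → ℝ => g ∘ Sum.inr) (gM (ι ⊕ κ)) (gM κ) :=
    (measurePreserving_snd (μ := gM ι) (ν := gM κ)).comp
      (measurePreserving_sumPiEquivProdPi fun _ : ι ⊕ κ => gaussianReal 0 1)
  intro M
  induction M with
  | zero =>
    intro u v hu hv
    simp only [Av, Em, V_zero]
    exact lz_prod μ₁ μ₂ u hu v hv
  | succ M ih =>
    intro u v hu hv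
    have hj : Bdd (fun x : Y × Z => u x.1 + v x.2) :=
      ⟨(hu.1.comp measurable_fst).add (hv.1.comp measurable_snd), hu.2.choose + hv.2.choose,
        fun x => (abs_add_le _ _).trans (add_le_add (hu.2.choose_spec _) (hv.2.choose_spec _))⟩
    simp only [Av]
    rw [Av_congr Measurable hl hr fun cs hcs => V_cons (μ₁.prod μ₂) hf hB hl hcs hj,
      Av_congr Measurable hl hr fun cs hcs => V_cons (μ₁.prod μ₂) hf hB hr hcs hj,
      ← integral_Av Measurable hl hr fun cs hcs => integrable_V_row (μ₁.prod μ₂) hf hB hl hcs hj,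
      ← integral_Av Measurable hl hr fun cs hcs => integrable_V_row (μ₁.prod μ₂) hf hB hr hcs hj]
    have e1 : ∀ g : ι ⊕ κ → ℝ, Av w (left p : Y × Z → ι ⊕ κ → ℝ) (right q) M
        (fun cs => V (μ₁.prod μ₂) f cs (fun x => u x.1 + v x.2 + f (fld (left p) g x)))
        = Em w M (fun k => V μ₁ f (fun _ : Fin k => p) (fun y => u y + f (fld p (g ∘ Sum.inl) y))
            + V μ₂ f (fun _ : Fin (M - k) => q) v) := by
      intro g
      rw [← ih _ v (bdd_row hf hB hp hu _) hv]
      simp only [fld_left, add_right_comm]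
    have e2 : ∀ g : ι ⊕ κ → ℝ, Av w (left p : Y × Z → ι ⊕ κ → ℝ) (right q) M
        (fun cs => V (μ₁.prod μ₂) f cs (fun x => u x.1 + v x.2 + f (fld (right q) g x)))
        = Em w M (fun k => V μ₁ f (fun _ : Fin k => p) u
            + V μ₂ f (fun _ : Fin (M - k) => q) (fun z => v z + f (fld q (g ∘ Sum.inr) z))) := by
      intro g
      rw [← ih u _ hu (bdd_row hf hB hq hv _)]
      simp only [fld_right, add_assoc]
    simp only [e1, e2, Em]
    congr 2
    · have hi : ∀ k, Integrable (fun g => V μ₁ f (fun _ : Fin k => p) (fun y => u y + f (fld p g y))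
          + V μ₂ f (fun _ : Fin (M - k) => q) v) (gM ι) := fun k =>
        (integrable_V_row μ₁ hf hB hp (fun _ => hp) hu).add (integrable_const _)
      calc _ = ∫ g, Em w M (fun k => V μ₁ f (fun _ : Fin k => p) (fun y => u y + f (fld p g y))
            + V μ₂ f (fun _ : Fin (M - k) => q) v) ∂gM ι := by
            rw [← hfst.map_eq, integral_map hfst.measurable.aemeasurable]
            rw [hfst.map_eq]
            exact (integrable_Em hi).aestronglyMeasurable
        _ = _ := by
            rw [integral_Em hi]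
            refine Em_congr fun k hk => ?_
            rw [integral_add (integrable_V_row μ₁ hf hB hp (fun _ => hp) hu) (integrable_const _),
              ← V_cons μ₁ hf hB hp (fun _ => hp) hu, cons_const,
              show M + 1 - (k + 1) = M - k by omega]
            simp
    · have hi : ∀ k, Integrable (fun g => V μ₁ f (fun _ : Fin k => p) u
          + V μ₂ f (fun _ : Fin (M - k) => q) (fun z => v z + f (fld q g z))) (gM κ) := fun k =>
        (integrable_const _).add (integrable_V_row μ₂ hf hB hq (fun _ => hq) hv)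
      calc _ = ∫ g, Em w M (fun k => V μ₁ f (fun _ : Fin k => p) u
            + V μ₂ f (fun _ : Fin (M - k) => q) (fun z => v z + f (fld q g z))) ∂gM κ := by
            rw [← hsnd.map_eq, integral_map hsnd.measurable.aemeasurable]
            rw [hsnd.map_eq]
            exact (integrable_Em hi).aestronglyMeasurable
        _ = _ := by
            rw [integral_Em hi]
            refine Em_congr fun k hk => ?_
            rw [integral_add (integrable_const _) (integrable_V_row μ₂ hf hB hq (fun _ => hq) hv),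
              ← V_cons μ₂ hf hB hq (fun _ => hq) hv, cons_const,
              show M + 1 - k = M - k + 1 by omega]
            simp

end Split

end P157.Sphere

end
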