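import Vale.Agent.P157.Sphere.Geometry
import Vale.Agent.P157.Sphere.Rec

/-!
# P157, sphere: the sphere in dimension `N + K` as a mixture of products of two spheres
-/

noncomputable section

open MeasureTheory ProbabilityTheory Real Filter Topology
open scoped BigOperators

namespace P157.Sphere

variable {ι κ : Type*} [Fintype ι] [Fintype κ]

/-- Share of the first block, clamped to the unit interval. -/
def share (R : ℝ × ℝ) : ℝ := max 0 (min 1 (R.1 / (R.1 + R.2)))

lemma share_nonneg (R : ℝ × ℝ) : 0 ≤ share R := le_max_left _ _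

lemma share_le_one (R : ℝ × ℝ) : share R ≤ 1 := max_le zero_le_one (min_le_left _ _)

lemma measurable_share : Measurable share := by unfold share; fun_prop

lemma share_eq {a b : ℝ} (ha : 0 ≤ a) (hb : 0 ≤ b) : share (a, b) = a / (a + b) := by
  have h1 : 0 ≤ a / (a + b) := by positivity
  have h2 : a / (a + b) ≤ 1 := div_le_one_of_le₀ (by linarith) (by linarith)
  simp [share, h1, h2]

lemma share_mul {a b : ℝ} (ha : 0 ≤ a) (hb : 0 ≤ b) : share (a, b) * (a + b) = a := by
  rw [share_eq ha hb]
  rcases (add_nonneg ha hb).eq_or_lt with h | h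
  · rw [← h, mul_zero]; linarith
  · exact div_mul_cancel₀ _ h.ne'

lemma abs_share_sub_le {a b n k : ℝ} (ha : 0 ≤ a) (hb : 0 ≤ b) (hn : 0 ≤ n) (hk : 0 ≤ k) :
    |share (a, b) * (n + k) - n| ≤ 2 * (|a - n| + |b - k|) := by
  have h := share_mul ha hb
  have h0 := share_nonneg (a, b)
  have h1 := share_le_one (a, b)
  have e : share (a, b) * (n + k) - n = (a - n) + share (a, b) * (-((a - n) + (b - k))) := by
    linear_combination (1 : ℝ) * h
  rw [e]
  refine (abs_add_le _ _).trans ?_
  rw [abs_mul, abs_of_nonneg h0, abs_neg]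
  have := abs_add_le (a - n) (b - k)
  have := mul_le_of_le_one_left (abs_nonneg ((a - n) + (b - k))) h1
  linarith [abs_nonneg (b - k)]

/-- The mixing map. -/
def glue (R : ℝ × ℝ) (x : (ι → ℝ) × (κ → ℝ)) : ι ⊕ κ → ℝ :=
  Sum.elim (fun i => Real.sqrt (share R) * x.1 i) (fun i => Real.sqrt (1 - share R) * x.2 i)

lemma measurable_glue :
    Measurable fun q : (ℝ × ℝ) × ((ι → ℝ) × (κ → ℝ)) => glue q.1 q.2 := by
  refine measurable_pi_iff.2 fun i => ?_
  have hs := measurable_share
  cases i with
  | inl i =>
    exact Measurable.mul (hs.comp measurable_fst).sqrt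
      ((measurable_pi_apply i).comp (measurable_fst.comp measurable_snd))
  | inr i =>
    exact Measurable.mul (measurable_const.sub (hs.comp measurable_fst)).sqrt
      ((measurable_pi_apply i).comp (measurable_snd.comp measurable_snd))

lemma rad_nonneg (z : ι → ℝ) : 0 ≤ rad z := Finset.sum_nonneg fun i _ => sq_nonneg _

lemma dir_elim (z : ι → ℝ) (y : κ → ℝ) :
    dir (Sum.elim z y) = glue (rad z, rad y) (dir z, dir y) := by
  have e : rad (Sum.elim z y) = rad z + rad y := by simp [rad, Fintype.sum_sum_type]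
  have ha := rad_nonneg z
  have hb := rad_nonneg y
  have hz : ∀ (v : ι → ℝ) (s : ℝ), 0 ≤ s → rad v ≤ s → ∀ i,
      Real.sqrt (rad v / s) * dir v i = v i / Real.sqrt s := by
    intro v s hs hvs i
    rcases (rad_nonneg v).eq_or_lt with h | h
    · have : v i = 0 := by
        have := (Finset.sum_eq_zero_iff_of_nonneg (s := Finset.univ) (f := fun j => v j ^ 2)
          fun j _ => sq_nonneg _).1 h.symm i (Finset.mem_univ _)
        exact pow_eq_zero_iff two_ne_zero |>.1 this
      simp [dir, this]
    · rw [dir, Real.sqrt_div h.le]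
      have := Real.sqrt_pos.2 h
      field_simp
  funext i
  cases i with
  | inl i =>
    simp only [glue, Sum.elim_inl, share_eq ha hb]
    rw [hz z _ (by linarith) (by linarith) i]
    simp [dir, e]
  | inr i =>
    simp only [glue, Sum.elim_inr, share_eq ha hb]
    rcases (add_nonneg ha hb).eq_or_lt with h | h
    · have hy : rad y = 0 := by linarith
      have : y i = 0 := by
        have := (Finset.sum_eq_zero_iff_of_nonneg (s := Finset.univ) (f := fun j => y j ^ 2)
          fun j _ => sq_nonneg _).1 hy i (Finset.mem_univ _)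
        exact pow_eq_zero_iff two_ne_zero |>.1 this
      simp [dir, this]
    · rw [show 1 - rad z / (rad z + rad y) = rad y / (rad z + rad y) by field_simp; ring]
      rw [dir, dir, e, Sum.elim_inr, Real.sqrt_div hb]
      rcases hb.eq_or_lt with h' | h'
      · have : y i = 0 := by
          have := (Finset.sum_eq_zero_iff_of_nonneg (s := Finset.univ) (f := fun j => y j ^ 2)
            fun j _ => sq_nonneg _).1 h'.symm i (Finset.mem_univ _)
          exact pow_eq_zero_iff two_ne_zero |>.1 this
        simp [this]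
      · have := Real.sqrt_pos.2 h'
        field_simp

lemma sph_sum [Nonempty ι] [Nonempty κ] :
    sph (ι ⊕ κ) = (((rlaw ι).prod (rlaw κ)).prod ((sph ι).prod (sph κ))).map
      (fun q => glue q.1 q.2) := by
  have h1 : MeasurePreserving (fun z : ι → ℝ => (dir z, rad z)) (gM ι) ((sph ι).prod (rlaw ι)) :=
    ⟨measurable_dir.prodMk measurable_rad, map_dir_rad⟩
  have h2 : MeasurePreserving (fun z : κ → ℝ => (dir z, rad z)) (gM κ) ((sph κ).prod (rlaw κ)) :=
    ⟨measurable_dir.prodMk measurable_rad, map_dir_rad⟩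
  have r1 := (h1.prod h2)
  have r2 : MeasurePreserving (fun q : ((ι → ℝ) × ℝ) × ((κ → ℝ) × ℝ) => ((q.1.2, q.2.2), (q.1.1, q.2.1)))
      (((sph ι).prod (rlaw ι)).prod ((sph κ).prod (rlaw κ)))
      (((rlaw ι).prod (rlaw κ)).prod ((sph ι).prod (sph κ))) := by
    refine ⟨by fun_prop, ?_⟩
    have p1 := (Measure.measurePreserving_swap (μ := sph ι) (ν := rlaw ι)).prod
      (Measure.measurePreserving_swap (μ := sph κ) (ν := rlaw κ))
    have p2 := measurePreserving_sumProdProd (rlaw ι) (sph ι) (rlaw κ) (sph κ)
    exact (p2.comp p1).map_eq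
  have h3 := (measurePreserving_sumPiEquivProdPi (fun _ : ι ⊕ κ => gaussianReal 0 1))
  have hall := r2.comp (r1.comp h3)
  rw [← hall.map_eq, Measure.map_map measurable_glue hall.measurable]
  refine Measure.map_congr (Eventually.of_forall fun z => ?_)
  show dir z = glue _ _
  conv_lhs => rw [show z = Sum.elim (z ∘ Sum.inl) (z ∘ Sum.inr) from (Sum.elim_comp_inl_inr z).symm]
  exact dir_elim _ _
where
  measurePreserving_sumProdProd {a b c d : Type _} [MeasurableSpace a] [MeasurableSpace b]
      [MeasurableSpace c] [MeasurableSpace d] (x : Measure a) (y : Measure b) (z : Measure c)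
      (t : Measure d) [SFinite x] [SFinite y] [SFinite z] [SFinite t] :
      MeasurePreserving (fun q : (a × b) × (c × d) => ((q.1.1, q.2.1), (q.1.2, q.2.2)))
        ((x.prod y).prod (z.prod t)) ((x.prod z).prod (y.prod t)) := by
    have A1 : MeasurePreserving MeasurableEquiv.prodAssoc ((x.prod y).prod (z.prod t))
        (x.prod (y.prod (z.prod t))) := ⟨MeasurableEquiv.prodAssoc.measurable, Measure.prodAssoc_prod⟩
    have B1 : MeasurePreserving MeasurableEquiv.prodAssoc.symm (y.prod (z.prod t))
        ((y.prod z).prod t) :=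
      MeasurePreserving.symm _ ⟨MeasurableEquiv.prodAssoc.measurable, Measure.prodAssoc_prod⟩
    have B2 := (Measure.measurePreserving_swap (μ := y) (ν := z)).prod (MeasurePreserving.id t)
    have B3 : MeasurePreserving MeasurableEquiv.prodAssoc ((z.prod y).prod t) (z.prod (y.prod t)) :=
      ⟨MeasurableEquiv.prodAssoc.measurable, Measure.prodAssoc_prod⟩
    have A3 : MeasurePreserving MeasurableEquiv.prodAssoc.symm (x.prod (z.prod (y.prod t)))
        ((x.prod z).prod (y.prod t)) :=
      MeasurePreserving.symm _ ⟨MeasurableEquiv.prodAssoc.measurable, Measure.prodAssoc_prod⟩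
    exact A3.comp (((MeasurePreserving.id x).prod (B3.comp (B2.comp B1))).comp A1)

/-- Jensen for a mixture. -/
lemma integral_lz_le {S X : Type*} [MeasurableSpace S] [MeasurableSpace X] (ρ : Measure S)
    [IsProbabilityMeasure ρ] (μ : Measure X) [IsProbabilityMeasure μ] {U : S → X → ℝ}
    (hU : Measurable fun q : S × X => U q.1 q.2) {C : ℝ} (hC : ∀ s x, |U s x| ≤ C) :
    ∫ s, lz μ (U s) ∂ρ ≤ lz (ρ.prod μ) (fun q => U q.1 q.2) := by
  have hb : Bdd (fun q : S × X => U q.1 q.2) := ⟨hU, C, fun q => hC q.1 q.2⟩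
  have hi := integrable_exp (ρ.prod μ) hb
  set m := ∫ q, Real.exp (U q.1 q.2) ∂ρ.prod μ with hm
  have hm0 : 0 < m := exp_integral_pos (ρ.prod μ) hb
  have hii : Integrable (fun s => ∫ x, Real.exp (U s x) ∂μ) ρ := hi.integral_prod_left
  have key : ∀ s, lz μ (U s) ≤ Real.log m + ((∫ x, Real.exp (U s x) ∂μ) / m - 1) := by
    intro s
    have hp := exp_integral_pos μ (u := U s) ⟨hU.comp measurable_prodMk_left, C, hC s⟩
    have := Real.log_le_sub_one_of_pos (div_pos hp hm0)
    rw [Real.log_div hp.ne' hm0.ne'] at this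
    unfold lz
    linarith
  refine (integral_mono (integrable_lz μ ρ hU hC)
    ((integrable_const _).add ((hii.div_const m).sub (integrable_const 1))) key).trans_eq ?_
  simp only [Pi.add_apply, Pi.sub_apply]
  rw [integral_add (f := fun _ => Real.log m) (integrable_const _)
      (g := fun s => (∫ x, Real.exp (U s x) ∂μ) / m - 1) ((hii.div_const m).sub (integrable_const 1)),
    integral_sub (hii.div_const m) (integrable_const 1), integral_div, ← integral_prod _ hi, ← hm,
    div_self hm0.ne']
  simp [lz, hm]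

/-- Variance of the square of a standard Gaussian variable. -/
def sqVar : ℝ := Var[fun x => x ^ 2; gaussianReal 0 1]

lemma memLp_sq : MemLp (fun x : ℝ => x ^ 2) 2 (gaussianReal 0 1) := by
  refine (memLp_two_iff_integrable_sq (by fun_prop)).2 ?_
  have h := (memLp_id_gaussianReal (μ := 0) (v := 1) 4).integrable_norm_pow (p := 4) (by norm_num)
  refine h.congr (Eventually.of_forall fun x => ?_)
  simp only [id_eq, Real.norm_eq_abs]
  rw [Even.pow_abs (by decide), ← pow_mul]

lemma integral_sq : ∫ x, x ^ 2 ∂gaussianReal 0 1 = 1 := by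
  have h := variance_id_gaussianReal (μ := 0) (v := 1)
  rw [variance_of_integral_eq_zero aemeasurable_id (by simp)] at h
  simpa using h

lemma sqVar_nonneg : 0 ≤ sqVar := variance_nonneg _ _

lemma integral_abs_rad_le [Nonempty ι] :
    Integrable (fun r : ℝ => |r - Fintype.card ι|) (rlaw ι) ∧
      ∫ r : ℝ, |r - Fintype.card ι| ∂rlaw ι ≤ (sqVar + 1) * Real.sqrt (Fintype.card ι) := by
  set n : ℝ := (Fintype.card ι : ℝ)
  have hn : 0 < n := by simp [n, Fintype.card_pos]
  have hcomp : ∀ i : ι, MemLp (fun z : ι → ℝ => z i ^ 2) 2 (gM ι) := fun i =>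
    memLp_sq.comp_measurePreserving (measurePreserving_eval _ i)
  have hL : MemLp (rad : (ι → ℝ) → ℝ) 2 (gM ι) := memLp_finset_sum _ fun i _ => hcomp i
  have hmean : ∫ z, rad z ∂gM ι = n := by
    unfold rad
    rw [integral_finset_sum _ fun i _ => (hcomp i).integrable one_le_two]
    have : ∀ i : ι, ∫ z, z i ^ 2 ∂gM ι = 1 := fun i => by
      rw [gM, integral_comp_eval (μ := fun _ : ι => gaussianReal 0 1) (by fun_prop) (f := fun x => x ^ 2)]
      exact integral_sq
    simp [this, n]
  have hvar : Var[rad; gM ι] = n * sqVar := by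
    have := variance_sum_pi (ι := ι) (μ := fun _ : ι => gaussianReal 0 1) (X := fun _ x => x ^ 2)
      fun _ => memLp_sq
    rw [Finset.sum_const, Finset.card_univ, nsmul_eq_mul] at this
    rw [← show (∑ i : ι, fun z : ι → ℝ => z i ^ 2) = rad from by funext z; simp [rad]]
    exact this
  have hsq : ∫ z, (rad z - n) ^ 2 ∂gM ι = n * sqVar := by
    rw [← hvar, variance_eq_integral measurable_rad.aemeasurable, hmean]
  have hi1 : Integrable (fun z => rad z - n) (gM ι) :=
    (hL.integrable one_le_two).sub (integrable_const n)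
  have hi2 : Integrable (fun z => (rad z - n) ^ 2) (gM ι) :=
    (hL.sub (memLp_const n)).integrable_sq
  have hm : AEStronglyMeasurable (fun r : ℝ => |r - n|) (rlaw ι) :=
    (by fun_prop : Continuous fun r : ℝ => |r - n|).aestronglyMeasurable
  refine ⟨(integrable_map_measure hm measurable_rad.aemeasurable).2 hi1.abs, ?_⟩
  rw [rlaw, integral_map measurable_rad.aemeasurable hm]
  have hs : 0 < Real.sqrt n := Real.sqrt_pos.2 hn
  refine (integral_mono hi1.abs ((hi2.div_const (Real.sqrt n)).add (integrable_const (Real.sqrt n)))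
    fun z => ?_).trans_eq ?_
  · show |rad z - n| ≤ (rad z - n) ^ 2 / Real.sqrt n + Real.sqrt n
    rw [div_add' _ _ _ hs.ne', le_div_iff₀ hs, ← sq_abs (rad z - n)]
    nlinarith [sq_nonneg (|rad z - n| - Real.sqrt n), abs_nonneg (rad z - n)]
  · simp only [Pi.add_apply]
    rw [integral_add (hi2.div_const _) (integrable_const _), integral_div, hsq]
    have : n * sqVar / Real.sqrt n = sqVar * Real.sqrt n := by
      rw [mul_comm n, mul_div_assoc, Real.div_sqrt]
    simp [this]
    ring

end P157.Sphere

end
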