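import Vale.Agent.P157.Sphere.Field

/-!
# P157, sphere: the one-row inequality for profiles ordered as quadratic forms
-/

noncomputable section

open MeasureTheory ProbabilityTheory Real Filter Topology
open scoped BigOperators

namespace P157.Sphere

variable {X ι : Type*} [MeasurableSpace X] [Fintype ι]

/-- Quadratic form of a profile. -/
def Q (p : X → ι → ℝ) {r : ℕ} (a : Fin r → ℝ) (τ : Fin r → X) : ℝ :=
  ∑ i, (∑ l, a l * p (τ l) i) ^ 2

/-- The covariance of `p` dominates the mixture of those of `p₁` and `p₂`. -/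
def Dom (p p₁ p₂ : X → ι → ℝ) (w : ℝ) : Prop :=
  ∀ (r : ℕ) (a : Fin r → ℝ) (τ : Fin r → X), w * Q p₁ a τ + (1 - w) * Q p₂ a τ ≤ Q p a τ

variable {ν : Measure ℝ} [IsFiniteMeasure ν] {A : ℝ}

omit [MeasurableSpace X] in
/-- The replica moment is convex in the covariance. -/
lemma moment_convex' {p p₁ p₂ : X → ι → ℝ} {w : ℝ} (h0 : 0 ≤ w) (h1 : w ≤ 1)
    (hd : Dom p p₁ p₂ w) {r : ℕ} (τ : Fin r → X) :
    ∫ g, ∏ l, h ν (fld p g (τ l)) ∂gM ι ≤
      w * ∫ g, ∏ l, h ν (fld p₁ g (τ l)) ∂gM ι + (1 - w) * ∫ g, ∏ l, h ν (fld p₂ g (τ l)) ∂gM ι := by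
  classical
  let μ : Measure (Fin r → ℝ) := Measure.pi fun _ => ν
  let a : (Fin r → ℝ) → (Fin r → Bool) → Fin r → ℝ := fun ξ e l => spin (e l) * ξ l
  let K : (X → ι → ℝ) → (Fin r → ℝ) → ℝ := fun d ξ =>
    ((2 : ℝ) ^ r)⁻¹ * ∑ e : Fin r → Bool, Real.exp (-(1 / 2) * Q d (a ξ e) τ)
  have key : ∀ d : X → ι → ℝ, ∫ g, ∏ l, h ν (fld d g (τ l)) ∂gM ι = ∫ ξ, K d ξ ∂μ := by
    intro d
    have e1 : ∀ g, ∏ l, h ν (fld d g (τ l)) = ∫ ξ, ∏ l, Real.cos (ξ l * fld d g (τ l)) ∂μ :=
      fun g => (integral_fintype_prod_eq_prod (μ := fun _ : Fin r => ν)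
        (fun l (x : ℝ) => Real.cos (x * fld d g (τ l)))).symm
    simp only [e1]
    rw [integral_integral_swap]
    · refine integral_congr_ae (Eventually.of_forall fun ξ => ?_)
      simp only [prod_cos, K]
      rw [integral_const_mul, integral_finset_sum]
      · congr 1
        refine Finset.sum_congr rfl fun e _ => ?_
        have e2 : ∀ g : ι → ℝ, ∑ l, spin (e l) * (ξ l * fld d g (τ l))
            = ∑ i, (∑ l, a ξ e l * d (τ l) i) * g i := by
          intro g
          simp only [fld, a, Finset.mul_sum, Finset.sum_mul]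
          rw [Finset.sum_comm]
          exact Finset.sum_congr rfl fun i _ => Finset.sum_congr rfl fun l _ => by ring
        simp only [e2, integral_cos_linear, Q]
      · intro e _
        exact Integrable.of_bound (Continuous.aestronglyMeasurable (by unfold fld; fun_prop)) 1
          (Eventually.of_forall fun g => by simpa using Real.abs_cos_le_one _)
    · refine Integrable.of_bound (Continuous.aestronglyMeasurable (by unfold fld; fun_prop)) 1 ?_
      refine Eventually.of_forall fun p => ?_
      simp only [Function.uncurry, norm_prod, Real.norm_eq_abs]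
      exact Finset.prod_le_one (fun l _ => abs_nonneg _) fun l _ => Real.abs_cos_le_one _
  have hK : ∀ d : X → ι → ℝ, Integrable (K d) μ := by
    intro d
    refine Integrable.of_bound (Continuous.aestronglyMeasurable ?_) 1 ?_
    · simp only [K, a, Q]; fun_prop
    · refine Eventually.of_forall fun ξ => ?_
      rw [Real.norm_eq_abs, abs_of_nonneg (by positivity)]
      rw [inv_mul_le_iff₀ (by positivity), mul_one]
      refine (Finset.sum_le_card_nsmul _ _ 1 fun e _ => ?_).trans_eq (by simp)
      refine Real.exp_le_one_iff.2 ?_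
      have : 0 ≤ Q d (a ξ e) τ := Finset.sum_nonneg fun i _ => sq_nonneg _
      linarith
  rw [key, key, key, ← integral_const_mul, ← integral_const_mul,
    ← integral_add ((hK p₁).const_mul _) ((hK p₂).const_mul _)]
  refine integral_mono (hK p) (((hK p₁).const_mul _).add ((hK p₂).const_mul _)) fun ξ => ?_
  simp only [K]
  rw [mul_left_comm w, mul_left_comm (1 - w), ← mul_add]
  refine mul_le_mul_of_nonneg_left ?_ (by positivity)
  rw [Finset.mul_sum, Finset.mul_sum, ← Finset.sum_add_distrib]
  refine Finset.sum_le_sum fun e _ => ?_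
  have hc := hd r (a ξ e) τ
  have hx := convexOn_exp.2 (Set.mem_univ (-(1 / 2) * Q p₁ (a ξ e) τ))
    (Set.mem_univ (-(1 / 2) * Q p₂ (a ξ e) τ)) h0 (sub_nonneg.2 h1) (by ring)
  simp only [smul_eq_mul] at hx
  exact le_trans (Real.exp_le_exp.2 (by linarith)) hx

/-- One row, as a function of the profile. -/
def row (μ : Measure X) (f : ℝ → ℝ) (u : X → ℝ) (p : X → ι → ℝ) : ℝ :=
  ∫ g, lz μ (fun x => u x + f (fld p g x)) ∂gM ι

theorem one_row' {μ : Measure X} [IsProbabilityMeasure μ] (hA : ν.real Set.univ < A)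
    {p p₁ p₂ : X → ι → ℝ} (hp : Measurable p) (hp₁ : Measurable p₁) (hp₂ : Measurable p₂)
    {w : ℝ} (h0 : 0 ≤ w) (h1 : w ≤ 1) (hd : Dom p p₁ p₂ w) {u : X → ℝ} (hu : Bdd u) :
    w * row μ (pot A ν) u p₁ + (1 - w) * row μ (pot A ν) u p₂ ≤ row μ (pot A ν) u p := by
  have hA0 : 0 < A := measureReal_nonneg.trans_lt hA
  have hf : Measurable (pot A ν) := (continuous_pot hA).measurable
  have hB := abs_pot_le (ν := ν) hA
  set θ : ℝ := ν.real Set.univ / A with hθ
  have hθ0 : 0 ≤ θ := div_nonneg measureReal_nonneg hA0.le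
  have hθ1 : θ < 1 := (div_lt_one hA0).2 hA
  have hie := integrable_exp μ hu
  set Zu : ℝ := ∫ x, Real.exp (u x) ∂μ with hZ
  have hZ0 : 0 < Zu := exp_integral_pos μ hu
  set P : Measure X := μ.tilted u with hP
  have : IsProbabilityMeasure P := isProbabilityMeasure_tilted hie
  let W : (X → ι → ℝ) → (ι → ℝ) → ℝ := fun d g => ∫ x, h ν (fld d g x) / A ∂P
  have hW : ∀ d g, |W d g| ≤ θ := by
    intro d g
    rw [← Real.norm_eq_abs]
    refine (norm_integral_le_of_norm_le_const (μ := P) (C := θ) (Eventually.of_forall fun x => ?_)).trans_eq ?_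
    · rw [Real.norm_eq_abs, abs_div, abs_of_pos hA0]
      exact div_le_div_of_nonneg_right (abs_h_le _) hA0.le
    · simp
  have hmeas : ∀ d : X → ι → ℝ, Measurable d →
      Measurable fun q : (ι → ℝ) × X => h ν (fld d q.1 q.2) := fun d hd' =>
    (continuous_h (ν := ν)).measurable.comp (measurable_fld hd')
  have hWm : ∀ d : X → ι → ℝ, Measurable d → Measurable (W d) := fun d hd' =>
    (((hmeas d hd').div_const A).stronglyMeasurable.integral_prod_right').measurable
  have hbase : ∀ d : X → ι → ℝ, Measurable d → ∀ g,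
      lz μ (fun x => u x + pot A ν (fld d g x))
        = Real.log Zu + Real.log A + Real.log (1 - W d g) := by
    intro d hd' g
    have hlt : 0 < 1 - W d g := by
      have := (abs_le.1 (hW d g)).2
      linarith
    rw [← Real.log_mul hZ0.ne' hA0.ne', ← Real.log_mul (by positivity) hlt.ne']
    unfold lz
    congr 1
    have hi : Integrable (fun x => h ν (fld d g x) / A) P := by
      refine Integrable.of_bound (((hmeas d hd').comp measurable_prodMk_left).div_const A).aestronglyMeasurable θ
        (Eventually.of_forall fun x => ?_)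
      rw [Real.norm_eq_abs, abs_div, abs_of_pos hA0]
      exact div_le_div_of_nonneg_right (abs_h_le _) hA0.le
    have e : 1 - W d g = ∫ x, (1 - h ν (fld d g x) / A) ∂P := by
      rw [integral_sub (integrable_const _) hi]
      simp [W]
    rw [e, hP, integral_tilted u (fun x => 1 - h ν (fld d g x) / A), ← integral_const_mul]
    refine integral_congr_ae (Eventually.of_forall fun x => ?_)
    simp only [Real.exp_add, pot, Real.exp_log (sub_h_pos hA _), smul_eq_mul, ← hZ]
    field_simp
  have hmom : ∀ r : ℕ, ∫ g, W p g ^ r ∂gM ι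
      ≤ w * ∫ g, W p₁ g ^ r ∂gM ι + (1 - w) * ∫ g, W p₂ g ^ r ∂gM ι := by
    intro r
    have hpair : ∀ d : X → ι → ℝ, Measurable d → Integrable
        (fun q : (Fin r → X) × (ι → ℝ) => ∏ l, h ν (fld d q.2 (q.1 l)) / A)
        ((Measure.pi fun _ : Fin r => P).prod (gM ι)) := by
      intro d hd'
      refine Integrable.of_bound (Finset.measurable_prod _ fun l _ => ?_).aestronglyMeasurable
        (θ ^ r) (Eventually.of_forall fun q => ?_)
      · have hl : Measurable fun q : (Fin r → X) × (ι → ℝ) => (q.2, q.1 l) :=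
          measurable_snd.prodMk ((measurable_pi_apply l).comp measurable_fst)
        exact ((hmeas d hd').comp hl).div_const A
      · rw [norm_prod]
        refine (Finset.prod_le_prod (fun l _ => norm_nonneg _) fun l _ => ?_).trans_eq
          (by simp : ∏ _l : Fin r, θ = θ ^ r)
        rw [Real.norm_eq_abs, abs_div, abs_of_pos hA0]
        exact div_le_div_of_nonneg_right (abs_h_le _) hA0.le
    have e : ∀ d : X → ι → ℝ, Measurable d → ∫ g, W d g ^ r ∂gM ι
        = ∫ τ : Fin r → X, (A ^ r)⁻¹ * ∫ g, ∏ l, h ν (fld d g (τ l)) ∂gM ι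
            ∂Measure.pi (fun _ => P) := by
      intro d hd'
      have e1 : ∀ g, W d g ^ r = ∫ τ : Fin r → X, ∏ l, h ν (fld d g (τ l)) / A
          ∂Measure.pi (fun _ => P) := by
        intro g
        rw [integral_fintype_prod_eq_prod (μ := fun _ : Fin r => P)
          (fun _ x => h ν (fld d g x) / A)]
        simp [W]
      simp only [e1]
      rw [← integral_integral_swap (hpair d hd')]
      refine integral_congr_ae (Eventually.of_forall fun τ => ?_)
      simp only [div_eq_inv_mul, Finset.prod_mul_distrib, Finset.prod_const, Finset.card_univ,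
        Fintype.card_fin, inv_pow, integral_const_mul]
    have hi : ∀ d : X → ι → ℝ, Measurable d → Integrable (fun τ : Fin r → X =>
        (A ^ r)⁻¹ * ∫ g, ∏ l, h ν (fld d g (τ l)) ∂gM ι) (Measure.pi fun _ => P) := by
      intro d hd'
      refine (hpair d hd').integral_prod_left.congr (Eventually.of_forall fun τ => ?_)
      simp only [div_eq_inv_mul, Finset.prod_mul_distrib, Finset.prod_const, Finset.card_univ,
        Fintype.card_fin, inv_pow, integral_const_mul]
    rw [e p hp, e p₁ hp₁, e p₂ hp₂, ← integral_const_mul, ← integral_const_mul,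
      ← integral_add ((hi p₁ hp₁).const_mul _) ((hi p₂ hp₂).const_mul _)]
    refine integral_mono (hi p hp) (((hi p₁ hp₁).const_mul _).add ((hi p₂ hp₂).const_mul _))
      fun τ => ?_
    have := mul_le_mul_of_nonneg_left (moment_convex' (ν := ν) h0 h1 hd τ)
      (inv_nonneg.2 (pow_nonneg hA0.le r))
    refine this.trans_eq ?_
    ring
  let S : ℕ → (X → ι → ℝ) → ℝ := fun n d =>
    ∑ i ∈ Finset.range n, (∫ g, W d g ^ (i + 1) ∂gM ι) / ((i : ℝ) + 1)
  have hlim : ∀ d : X → ι → ℝ, Measurable d →
      Tendsto (fun n => Real.log Zu + Real.log A - S n d) atTop (𝓝 (row μ (pot A ν) u d)) := by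
    intro d hd'
    have hgeo : Tendsto (fun n : ℕ => θ ^ (n + 1) / (1 - θ)) atTop (𝓝 0) := by
      have := ((tendsto_pow_atTop_nhds_zero_of_lt_one hθ0 hθ1).comp (tendsto_add_atTop_nat 1)).div_const (1 - θ)
      simpa using this
    have ip : ∀ i : ℕ, Integrable (fun g => W d g ^ i) (gM ι) := fun i =>
      Integrable.of_bound ((hWm d hd').pow_const i).aestronglyMeasurable (θ ^ i)
        (Eventually.of_forall fun g => by
          rw [norm_pow]; exact pow_le_pow_left₀ (norm_nonneg _) (hW d g) i)
    refine tendsto_iff_norm_sub_tendsto_zero.2 (squeeze_zero (fun n => norm_nonneg _) (fun n => ?_) hgeo)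
    have ir : Integrable (fun g => lz μ (fun x => u x + pot A ν (fld d g x))) (gM ι) := by
      obtain ⟨hm, C, hC⟩ := hu
      exact integrable_lz μ _ (U := fun g x => u x + pot A ν (fld d g x))
        ((hm.comp measurable_snd).add (hf.comp (measurable_fld hd')))
        (C := C + potB A ν) fun g x => (abs_add_le _ _).trans (add_le_add (hC x) (hB _))
    have e : Real.log Zu + Real.log A - S n d - row μ (pot A ν) u d
        = ∫ g, (Real.log Zu + Real.log A - (∑ i ∈ Finset.range n, W d g ^ (i + 1) / ((i : ℝ) + 1))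
            - lz μ (fun x => u x + pot A ν (fld d g x))) ∂gM ι := by
      have i1 : Integrable (fun g => ∑ i ∈ Finset.range n, W d g ^ (i + 1) / ((i : ℝ) + 1)) (gM ι) :=
        integrable_finset_sum _ fun i _ => (ip (i + 1)).div_const _
      have i2 : Integrable (fun g => Real.log Zu + Real.log A
          - ∑ i ∈ Finset.range n, W d g ^ (i + 1) / ((i : ℝ) + 1)) (gM ι) :=
        (integrable_const _).sub i1
      rw [integral_sub i2 ir, integral_sub (integrable_const _) i1,
        integral_finset_sum _ (fun i _ => (ip (i + 1)).div_const _)]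
      simp only [integral_div]
      simp [S, row]
    rw [e]
    refine (norm_integral_le_of_norm_le_const (μ := gM ι) (C := θ ^ (n + 1) / (1 - θ))
      (Eventually.of_forall fun g => ?_)).trans_eq (by simp)
    rw [hbase d hd', Real.norm_eq_abs]
    have hlt : |W d g| < 1 := (hW d g).trans_lt hθ1
    have h2 := Real.abs_log_sub_add_sum_range_le hlt n
    have h3 : |W d g| ^ (n + 1) / (1 - |W d g|) ≤ θ ^ (n + 1) / (1 - θ) :=
      div_le_div₀ (by positivity) (pow_le_pow_left₀ (abs_nonneg _) (hW d g) _) (by linarith)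
        (by linarith [hW d g])
    refine le_trans (le_of_eq ?_) (h2.trans h3)
    rw [← abs_neg]
    congr 1
    ring
  refine le_of_tendsto_of_tendsto' (((hlim p₁ hp₁).const_mul w).add ((hlim p₂ hp₂).const_mul (1 - w)))
    (hlim p hp) fun n => ?_
  have : S n p ≤ w * S n p₁ + (1 - w) * S n p₂ := by
    simp only [S, Finset.mul_sum, ← Finset.sum_add_distrib]
    refine Finset.sum_le_sum fun i _ => ?_
    rw [mul_div_assoc', mul_div_assoc', ← add_div]
    exact div_le_div_of_nonneg_right (hmom (i + 1)) (by positivity)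
  nlinarith

end P157.Sphere

end
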