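import Vale.Agent.P157.Sphere.Mix
import Vale.Agent.P157.Limit

/-!
# P157, sphere: superadditivity
-/

noncomputable section

open MeasureTheory ProbabilityTheory Real Filter Topology
open scoped BigOperators

namespace P157.Sphere

variable {ν : Measure ℝ} [IsFiniteMeasure ν] {A : ℝ}

/-- Averaged log partition function on the unit sphere, with `k` patterns. -/
def press (ι : Type*) [Fintype ι] (f : ℝ → ℝ) (k : ℕ) : ℝ :=
  V (sph ι) f (fun _ : Fin k => fun x : ι → ℝ => x) (fun _ => 0)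

/-- The same at density `α`. -/
def sSeq (f : ℝ → ℝ) (α : ℝ) (N : ℕ) : ℝ := press (Fin N) f ⌊α * N⌋₊

lemma press_equiv {γ δ : Type*} [Fintype γ] [Fintype δ] (e : γ ≃ δ) {f : ℝ → ℝ} {B : ℝ}
    (hf : Measurable f) (hB : ∀ s, |f s| ≤ B) (k : ℕ) : press δ f k = press γ f k := by
  let E : (γ → ℝ) → δ → ℝ := fun x d => x (e.symm d)
  have hE : Measurable E := by unfold E; fun_prop
  have hmp : MeasurePreserving E (gM γ) (gM δ) := by
    have h := measurePreserving_piCongrLeft (fun _ : δ => gaussianReal 0 1) e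
    unfold gM
    convert h using 1
    funext x d
    obtain ⟨i, rfl⟩ := e.surjective d
    simp [E, MeasurableEquiv.piCongrLeft, Equiv.piCongrLeft_apply_apply]
  have hrad : ∀ x, rad (E x) = rad x := fun x =>
    (Fintype.sum_equiv e _ _ fun i => by simp [E]).symm
  have hs : sph δ = (sph γ).map E := by
    rw [sph, sph, ← hmp.map_eq, Measure.map_map measurable_dir hE, Measure.map_map hE measurable_dir]
    congr 1
    funext x d
    simp [dir, hrad, E]
  have hfld : ∀ g x, fld (fun x : δ → ℝ => x) (E g) (E x) = fld (fun x : γ → ℝ => x) g x := fun g x =>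
    (Fintype.sum_equiv e _ _ fun i => by simp [E]).symm
  have hG : (Measure.pi fun _ : Fin k => gM γ).map (fun G a => E (G a))
      = Measure.pi fun _ : Fin k => gM δ := by
    rw [Measure.pi_map_pi fun _ => hE.aemeasurable, hmp.map_eq]
  have hm : Measurable fun (G : Fin k → γ → ℝ) a => E (G a) := by unfold E; fun_prop
  unfold press V
  rw [← hG, integral_map hm.aemeasurable]
  · refine integral_congr_ae (Eventually.of_forall fun G => ?_)
    simp only [lz, hs]
    rw [integral_map hE.aemeasurable]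
    · simp only [tot, hfld]
    · exact ((measurable_const.add ((measurable_tot hf fun _ => measurable_id').comp
        measurable_prodMk_left)).exp).aestronglyMeasurable
  · rw [hG]
    exact (integrable_V (sph δ) hf hB (fun _ => measurable_id') Bdd.zero).aestronglyMeasurable

theorem sSeq_bound {f : ℝ → ℝ} {B : ℝ} (hf : Measurable f) (hB : ∀ s, |f s| ≤ B) {α : ℝ}
    (hα : 0 ≤ α) (N : ℕ) : |sSeq f α N| ≤ B * α * N := by
  have h := V_const_dist (sph (Fin N)) hf hB (c := fun x : Fin N → ℝ => x) measurable_id' Bdd.zero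
    ⌊α * N⌋₊ 0
  rw [V_zero] at h
  simp only [lz, Real.exp_zero, integral_const, probReal_univ, one_smul, Real.log_one, sub_zero,
    Nat.cast_zero, Nat.abs_cast] at h
  have hB0 : 0 ≤ B := (abs_nonneg _).trans (hB 0)
  refine h.trans ?_
  rw [mul_assoc]
  exact mul_le_mul_of_nonneg_left (Nat.floor_le (by positivity)) hB0

section Two

variable {ι κ : Type*} [Fintype ι] [Fintype κ] [Nonempty ι] [Nonempty κ]

/-- Radii are almost surely nonnegative. -/
lemma ae_nonneg_radii : ∀ᵐ R ∂(rlaw ι).prod (rlaw κ), 0 ≤ R.1 ∧ 0 ≤ R.2 := by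
  have h : ∀ (δ : Type _) [Fintype δ], ∀ᵐ r ∂rlaw δ, 0 ≤ r := fun δ _ =>
    (ae_map_iff measurable_rad.aemeasurable measurableSet_Ici).2 (Eventually.of_forall rad_nonneg)
  exact ((Measure.quasiMeasurePreserving_fst (μ := rlaw ι) (ν := rlaw κ)).ae (h ι)).and
    ((Measure.quasiMeasurePreserving_snd (μ := rlaw ι) (ν := rlaw κ)).ae
      ((ae_map_iff measurable_rad.aemeasurable measurableSet_Ici).2 (Eventually.of_forall rad_nonneg)))

lemma press_mix_ge {f : ℝ → ℝ} {B : ℝ} (hf : Measurable f) (hB : ∀ s, |f s| ≤ B) (M : ℕ) :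
    Integrable (fun R : ℝ × ℝ => V ((sph ι).prod (sph κ)) f (fun _ : Fin M => glue R) (fun _ => 0))
        ((rlaw ι).prod (rlaw κ)) ∧
      ∫ R, V ((sph ι).prod (sph κ)) f (fun _ : Fin M => glue R) (fun _ => 0)
          ∂(rlaw ι).prod (rlaw κ) ≤ press (ι ⊕ κ) f M := by
  set ρ := (rlaw ι).prod (rlaw κ)
  set μ := (sph ι).prod (sph κ)
  have htm : Measurable fun q : ((Fin M → ι ⊕ κ → ℝ) × (ℝ × ℝ)) × ((ι → ℝ) × (κ → ℝ)) =>
      tot f (fun _ : Fin M => glue q.1.2) q.1.1 q.2 := by
    unfold tot fld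
    refine Finset.measurable_sum _ fun a _ => hf.comp (Finset.measurable_sum _ fun i _ => ?_)
    have h1 : Measurable fun q : ((Fin M → ι ⊕ κ → ℝ) × (ℝ × ℝ)) × ((ι → ℝ) × (κ → ℝ)) =>
        (q.1.2, q.2) := (measurable_snd.comp measurable_fst).prodMk measurable_snd
    exact ((measurable_pi_apply i).comp (measurable_glue.comp h1)).mul
      ((measurable_pi_apply i).comp ((measurable_pi_apply a).comp (measurable_fst.comp measurable_fst)))
  have hb : ∀ (cs : Fin M → (ι → ℝ) × (κ → ℝ) → ι ⊕ κ → ℝ) G x,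
      |(0 : ℝ) + tot f cs G x| ≤ M * B := fun cs G x => by
    rw [zero_add]; exact abs_tot_le hB cs G x
  have hpair : Integrable (fun p : (Fin M → ι ⊕ κ → ℝ) × (ℝ × ℝ) =>
      lz μ (fun x => 0 + tot f (fun _ : Fin M => glue p.2) p.1 x))
      ((Measure.pi fun _ : Fin M => gM (ι ⊕ κ)).prod ρ) :=
    @integrable_lz ((ι → ℝ) × (κ → ℝ)) _ μ _ ((Fin M → ι ⊕ κ → ℝ) × (ℝ × ℝ)) _ _ _
      (fun p x => (0 : ℝ) + tot f (fun _ : Fin M => glue p.2) p.1 x)
      (measurable_const.add htm) (M * B) fun p x => hb (fun _ : Fin M => glue p.2) p.1 x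
  have hVR : Integrable (fun R => V μ f (fun _ : Fin M => glue R) (fun _ => 0)) ρ :=
    hpair.integral_prod_right
  refine ⟨hVR, ?_⟩
  unfold V press
  rw [← integral_integral_swap (f := fun G R =>
    lz μ (fun x => 0 + tot f (fun _ : Fin M => glue R) G x)) hpair]
  unfold V
  refine integral_mono hpair.integral_prod_left
    (integrable_V (sph (ι ⊕ κ)) hf hB (fun _ => measurable_id') Bdd.zero) fun G => ?_
  have hG : Measurable fun q : (ℝ × ℝ) × ((ι → ℝ) × (κ → ℝ)) =>
      (0 : ℝ) + tot f (fun _ : Fin M => glue q.1) G q.2 := by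
    have h2 : Measurable fun q : (ℝ × ℝ) × ((ι → ℝ) × (κ → ℝ)) => ((G, q.1), q.2) :=
      (measurable_prodMk_left.comp measurable_fst).prodMk measurable_snd
    have h3 := htm.comp h2
    exact measurable_const.add h3
  refine (integral_lz_le ρ μ (U := fun R x => 0 + tot f (fun _ : Fin M => glue R) G x) hG
    (C := M * B) fun R x => hb _ _ _).trans_eq ?_
  unfold lz
  rw [sph_sum, integral_map measurable_glue.aemeasurable]
  · rfl
  · exact ((measurable_const.add ((measurable_tot hf fun _ => measurable_id').comp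
      measurable_prodMk_left)).exp).aestronglyMeasurable

lemma press_sum_ge (hA : ν.real Set.univ < A) (M : ℕ) :
    Integrable (fun R : ℝ × ℝ => Em (share R) M
        (fun k => press ι (pot A ν) k + press κ (pot A ν) (M - k))) ((rlaw ι).prod (rlaw κ)) ∧
      ∫ R, Em (share R) M (fun k => press ι (pot A ν) k + press κ (pot A ν) (M - k))
          ∂(rlaw ι).prod (rlaw κ) ≤ press (ι ⊕ κ) (pot A ν) M := by
  have hf : Measurable (pot A ν) := (continuous_pot hA).measurable
  have hB := abs_pot_le (ν := ν) hA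
  set ρ := (rlaw ι).prod (rlaw κ)
  set μ := (sph ι).prod (sph κ)
  have hp : ∀ R, Measurable (glue R : (ι → ℝ) × (κ → ℝ) → ι ⊕ κ → ℝ) := fun R =>
    measurable_glue.comp measurable_prodMk_left
  have hdom : ∀ R, Dom (glue R : (ι → ℝ) × (κ → ℝ) → ι ⊕ κ → ℝ)
      (left fun x : ι → ℝ => x) (right fun x : κ → ℝ => x) (share R) := by
    intro R r a τ
    refine le_of_eq ?_
    simp only [Q, glue, left, right, Fintype.sum_sum_type, Sum.elim_inl, Sum.elim_inr,
      Pi.zero_apply, mul_zero, Finset.sum_const_zero, zero_pow two_ne_zero, add_zero, zero_add,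
      Finset.mul_sum]
    congr 1 <;> refine Finset.sum_congr rfl fun i _ => ?_
    · rw [← Real.sq_sqrt (share_nonneg R), ← mul_pow, Real.sq_sqrt (share_nonneg R), Finset.mul_sum]
      exact congrArg (· ^ 2) (Finset.sum_congr rfl fun l _ => by ring)
    · rw [← Real.sq_sqrt (sub_nonneg.2 (share_le_one R)), ← mul_pow,
        Real.sq_sqrt (sub_nonneg.2 (share_le_one R)), Finset.mul_sum]
      exact congrArg (· ^ 2) (Finset.sum_congr rfl fun l _ => by ring)
  have hlow : ∀ R, Em (share R) M (fun k => press ι (pot A ν) k + press κ (pot A ν) (M - k))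
      ≤ V μ (pot A ν) (fun _ : Fin M => glue R) (fun _ => 0) := by
    intro R
    have h := Av_le_const μ hA (hp R) (measurable_left measurable_id')
      (measurable_right measurable_id') (share_nonneg R) (share_le_one R) (hdom R) M
      (fun x => (fun _ : ι → ℝ => (0 : ℝ)) x.1 + (fun _ : κ → ℝ => (0 : ℝ)) x.2)
      (Bdd.add (u := fun _ => (0 : ℝ)) (v := fun _ => (0 : ℝ)) Bdd.zero Bdd.zero)
    rw [Av_split (sph ι) (sph κ) hf hB measurable_id' measurable_id' (share R) M _ _ Bdd.zero Bdd.zero]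
      at h
    simpa [press] using h
  have hEm : Measurable fun R : ℝ × ℝ => Em (share R) M
      (fun k => press ι (pot A ν) k + press κ (pot A ν) (M - k)) := by
    suffices ∀ (n : ℕ) (φ : ℕ → ℝ), Measurable fun R : ℝ × ℝ => Em (share R) n φ from this M _
    intro n
    induction n with
    | zero => intro φ; exact measurable_const
    | succ n ih =>
      intro φ
      exact (measurable_share.mul (ih _)).add ((measurable_const.sub measurable_share).mul (ih _))
  have hEi : Integrable (fun R : ℝ × ℝ => Em (share R) M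
      (fun k => press ι (pot A ν) k + press κ (pot A ν) (M - k))) ρ := by
    obtain ⟨b, hb'⟩ : ∃ b, ∀ k ≤ M, |press ι (pot A ν) k + press κ (pot A ν) (M - k)| ≤ b :=
      ⟨∑ k ∈ Finset.range (M + 1), |press ι (pot A ν) k + press κ (pot A ν) (M - k)|, fun k hk =>
        Finset.single_le_sum (f := fun k => |press ι (pot A ν) k + press κ (pot A ν) (M - k)|)
          (fun j _ => abs_nonneg _) (Finset.mem_range.2 (by omega))⟩
    refine Integrable.of_bound hEm.aestronglyMeasurable b (Eventually.of_forall fun R => ?_)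
    have c0 : ∀ c : ℝ, Em (share R) M (fun _ => c) = c := fun c => by
      simpa using Em_affine (w := share R) c 0 (M := M) (fun _ => (0 : ℝ))
    rw [Real.norm_eq_abs]
    refine abs_le.2 ⟨?_, ?_⟩
    · rw [← c0 (-b)]
      exact Em_mono (share_nonneg R) (share_le_one R) fun k hk => (abs_le.1 (hb' k hk)).1
    · rw [← c0 b]
      exact Em_mono (share_nonneg R) (share_le_one R) fun k hk => (abs_le.1 (hb' k hk)).2
  obtain ⟨hVR, hle⟩ := press_mix_ge (ι := ι) (κ := κ) hf hB M
  exact ⟨hEi, (integral_mono hEi hVR hlow).trans hle⟩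

end Two

theorem sSeq_super (hA : ν.real Set.univ < A) {α : ℝ} (hα : 0 ≤ α) (N K : ℕ) :
    sSeq (pot A ν) α N + sSeq (pot A ν) α K -
        potB A ν * (8 * (sqVar + 1) * α + 2 * Real.sqrt α + 12) * Real.sqrt ((N + K : ℕ) : ℝ)
      ≤ sSeq (pot A ν) α (N + K) := by
  have hf : Measurable (pot A ν) := (continuous_pot hA).measurable
  have hB := abs_pot_le (ν := ν) hA
  have hB0 : 0 ≤ potB A ν := (abs_nonneg _).trans (hB 0)
  have hv := sqVar_nonneg
  have hC0 : 0 ≤ potB A ν * (8 * (sqVar + 1) * α + 2 * Real.sqrt α + 12) := by positivity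
  have hz : sSeq (pot A ν) α 0 = 0 := by
    have := sSeq_bound hf hB hα 0
    simpa using this
  rcases Nat.eq_zero_or_pos N with rfl | hN
  · simp only [Nat.zero_add, hz]
    have := mul_nonneg hC0 (Real.sqrt_nonneg (K : ℝ))
    linarith
  rcases Nat.eq_zero_or_pos K with rfl | hK
  · simp only [Nat.add_zero, hz]
    have := mul_nonneg hC0 (Real.sqrt_nonneg (N : ℝ))
    linarith
  have : Nonempty (Fin N) := ⟨⟨0, hN⟩⟩
  have : Nonempty (Fin K) := ⟨⟨0, hK⟩⟩
  set T₀ : ℕ := N + K
  have hTR : (T₀ : ℝ) = (N : ℝ) + K := by simp [T₀]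
  set M : ℕ := ⌊α * T₀⌋₊
  set k₁ : ℕ := ⌊α * N⌋₊
  set k₂ : ℕ := ⌊α * K⌋₊
  set φ : ℕ → ℝ := fun k => press (Fin N) (pot A ν) k + press (Fin K) (pot A ν) (M - k)
  obtain ⟨hi, hmain⟩ := press_sum_ge (ι := Fin N) (κ := Fin K) hA M
  rw [← press_equiv (finSumFinEquiv : Fin N ⊕ Fin K ≃ Fin (N + K)) hf hB M] at hmain
  obtain ⟨iN, bN⟩ := integral_abs_rad_le (ι := Fin N)
  obtain ⟨iK, bK⟩ := integral_abs_rad_le (ι := Fin K)
  simp only [Fintype.card_fin] at iN bN iK bK
  set s : ℝ := Real.sqrt T₀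
  have hNR : (1 : ℝ) ≤ N := by exact_mod_cast hN
  have hKR : (1 : ℝ) ≤ K := by exact_mod_cast hK
  have hs1 : 1 ≤ s := Real.one_le_sqrt.2 (by linarith)
  set t' : ℝ := Real.sqrt α * s + 1
  have ht' : 0 < t' := by positivity
  have hM1 : (M : ℝ) ≤ α * T₀ := Nat.floor_le (by positivity)
  have hM2 : α * T₀ < M + 1 := Nat.lt_floor_add_one _
  have hk1 : (k₁ : ℝ) ≤ α * N := Nat.floor_le (by positivity)
  have hk1' : α * N < k₁ + 1 := Nat.lt_floor_add_one _
  have hk2 : (k₂ : ℝ) ≤ α * K := Nat.floor_le (by positivity)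
  have hk2' : α * K < k₂ + 1 := Nat.lt_floor_add_one _
  have e0 : α * T₀ = α * N + α * K := by rw [hTR]; ring
  have hs2 : s ^ 2 = T₀ := Real.sq_sqrt (by positivity)
  have hMt : (M : ℝ) ≤ t' * t' := by
    have has : 0 ≤ Real.sqrt α * s := mul_nonneg (Real.sqrt_nonneg α) (by linarith)
    calc (M : ℝ) ≤ Real.sqrt α ^ 2 * s ^ 2 := by rw [hs2, Real.sq_sqrt hα]; exact hM1
      _ ≤ _ := by nlinarith
  set base₀ : ℝ := press (Fin N) (pot A ν) k₁ + press (Fin K) (pot A ν) k₂
    - potB A ν * (2 + t' + t' / 4 + 8)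
  have point : ∀ᵐ R ∂(rlaw (Fin N)).prod (rlaw (Fin K)),
      base₀ - potB A ν * α * 4 * (|R.1 - (N : ℝ)| + |R.2 - (K : ℝ)|) ≤ Em (share R) M φ := by
    filter_upwards [ae_nonneg_radii (ι := Fin N) (κ := Fin K)] with R hR
    set t := share R with ht
    have t0 := share_nonneg R
    have t1 := share_le_one R
    set j : ℕ := ⌊(M : ℝ) * t⌋₊ with hj
    have hj1 : (j : ℝ) ≤ M * t := Nat.floor_le (by positivity)
    have hj2 : (M : ℝ) * t < j + 1 := Nat.lt_floor_add_one _
    have hjM : j ≤ M := by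
      have : (j : ℝ) ≤ M := hj1.trans (mul_le_of_le_one_right (Nat.cast_nonneg M) t1)
      exact_mod_cast this
    have hcast : ((M - j : ℕ) : ℝ) = (M : ℝ) - j := Nat.cast_sub hjM
    have hlow := Em_low (B := potB A ν) t0 t1 hB0 (k₁ := j) (k₂ := M - j) ht' hMt
      (abs_le.2 ⟨by linarith, by linarith⟩)
      (by rw [hcast]; exact abs_le.2 ⟨by linarith, by linarith⟩)
      (φ := φ) (φ₀ := press (Fin N) (pot A ν) j + press (Fin K) (pot A ν) (M - j)) (fun k hk => by
        have r1 := (abs_le.1 (V_const_dist (sph (Fin N)) hf hB (c := fun x : Fin N → ℝ => x)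
          measurable_id' Bdd.zero k j)).1
        have r2 := (abs_le.1 (V_const_dist (sph (Fin K)) hf hB (c := fun x : Fin K → ℝ => x)
          measurable_id' Bdd.zero (M - k) (M - j))).1
        simp only [φ, press]
        linarith)
    have d := abs_share_sub_le (n := (N : ℝ)) (k := (K : ℝ)) hR.1 hR.2 (by linarith) (by linarith)
    have d' : |α * T₀ * t - α * N| ≤ 2 * α * (|R.1 - (N : ℝ)| + |R.2 - (K : ℝ)|) := by
      rw [hTR, show α * ((N : ℝ) + K) * t - α * N = α * (t * ((N : ℝ) + K) - N) by ring, abs_mul,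
        abs_of_nonneg hα]
      calc α * |t * ((N : ℝ) + K) - N| ≤ α * (2 * (|R.1 - (N : ℝ)| + |R.2 - (K : ℝ)|)) :=
            mul_le_mul_of_nonneg_left d hα
        _ = _ := by ring
    obtain ⟨d1, d2⟩ := abs_le.1 d'
    have m1 : (M : ℝ) * t ≤ α * T₀ * t := mul_le_mul_of_nonneg_right hM1 t0
    have m2 : α * T₀ * t ≤ M * t + 1 := by
      have := mul_le_mul_of_nonneg_right hM2.le t0
      linarith
    have g1 : |(j : ℝ) - k₁| ≤ 2 * α * (|R.1 - (N : ℝ)| + |R.2 - (K : ℝ)|) + 3 :=
      abs_le.2 ⟨by linarith, by linarith⟩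
    have g2 : |((M - j : ℕ) : ℝ) - k₂| ≤ 2 * α * (|R.1 - (N : ℝ)| + |R.2 - (K : ℝ)|) + 5 := by
      rw [hcast]
      exact abs_le.2 ⟨by linarith, by linarith⟩
    have r1 := (abs_le.1 (V_const_dist (sph (Fin N)) hf hB (c := fun x : Fin N → ℝ => x)
      measurable_id' Bdd.zero j k₁)).1
    have r2 := (abs_le.1 (V_const_dist (sph (Fin K)) hf hB (c := fun x : Fin K → ℝ => x)
      measurable_id' Bdd.zero (M - j) k₂)).1
    have r3 := mul_le_mul_of_nonneg_left g1 hB0
    have r4 := mul_le_mul_of_nonneg_left g2 hB0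
    simp only [base₀, press] at hlow ⊢
    linarith
  set ρ := (rlaw (Fin N)).prod (rlaw (Fin K))
  have i1 : Integrable (fun R : ℝ × ℝ => |R.1 - N|) ρ :=
    (measurePreserving_fst (μ := rlaw (Fin N)) (ν := rlaw (Fin K))).integrable_comp_of_integrable iN
  have i2 : Integrable (fun R : ℝ × ℝ => |R.2 - K|) ρ :=
    (measurePreserving_snd (μ := rlaw (Fin N)) (ν := rlaw (Fin K))).integrable_comp_of_integrable iK
  have hint := integral_mono_ae ((integrable_const base₀).sub ((i1.add i2).const_mul (potB A ν * α * 4)))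
    hi point
  simp only [Pi.sub_apply, Pi.add_apply] at hint
  rw [integral_sub (integrable_const base₀) (by exact (i1.add i2).const_mul _), integral_const,
    probReal_univ, one_smul, integral_const_mul, integral_add i1 i2] at hint
  have e1 : ∫ R, |R.1 - N| ∂ρ = ∫ r, |r - N| ∂rlaw (Fin N) := by
    rw [integral_fun_fst (μ := rlaw (Fin N)) (ν := rlaw (Fin K)) (fun r => |r - N|)]
    simp
  have e2 : ∫ R, |R.2 - K| ∂ρ = ∫ r, |r - K| ∂rlaw (Fin K) := by
    rw [integral_fun_snd (μ := rlaw (Fin N)) (ν := rlaw (Fin K)) (fun r => |r - K|)]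
    simp
  rw [e1, e2] at hint
  have sN : Real.sqrt N ≤ s := Real.sqrt_le_sqrt (by linarith)
  have sK : Real.sqrt K ≤ s := Real.sqrt_le_sqrt (by linarith)
  have bs : ∫ r, |r - N| ∂rlaw (Fin N) + ∫ r, |r - K| ∂rlaw (Fin K) ≤ 2 * (sqVar + 1) * s := by
    have := mul_le_mul_of_nonneg_left sN (by linarith : 0 ≤ sqVar + 1)
    have := mul_le_mul_of_nonneg_left sK (by linarith : 0 ≤ sqVar + 1)
    linarith
  have bs' := mul_le_mul_of_nonneg_left bs (by positivity : 0 ≤ potB A ν * α * 4)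
  have hC : potB A ν * (2 + t' + t' / 4 + 8) ≤ potB A ν * (2 * Real.sqrt α + 12) * s := by
    rw [mul_assoc]
    refine mul_le_mul_of_nonneg_left ?_ hB0
    have has : 0 ≤ Real.sqrt α * s := mul_nonneg (Real.sqrt_nonneg α) (by linarith)
    simp only [t']
    linarith
  have e : sSeq (pot A ν) α N + sSeq (pot A ν) α K
      = press (Fin N) (pot A ν) k₁ + press (Fin K) (pot A ν) k₂ := rfl
  have hmain' : base₀ - potB A ν * α * 4 * (∫ r, |r - N| ∂rlaw (Fin N) + ∫ r, |r - K| ∂rlaw (Fin K))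
      ≤ sSeq (pot A ν) α (N + K) := hint.trans hmain
  simp only [base₀] at hmain'
  linarith

end P157.Sphere

end
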